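import Vale.Agent.P073Z.MESH.Defs
import Vale.Agent.P073Z.A7a.Sgn
import Vale.Agent.P073Z.RCX

/-!
# General facts about cells given by sign conditions
-/

open Set Metric Topology Filter MeasureTheory
open scoped ENNReal NNReal

namespace P073

namespace Me

variable {Φ : Set (E3 →ᵃ[ℝ] ℝ)} {x y : E3}

theorem near_sign (hΦ : Φ.Finite) (x : E3) :
    ∀ᶠ y in 𝓝 x, ∀ ℓ ∈ Φ, ℓ x ≠ 0 → SignType.sign (ℓ y) = SignType.sign (ℓ x) := by
  refine (eventually_all_finite hΦ).2 fun ℓ _ => ?_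
  have hc := ℓ.continuous_of_finiteDimensional.continuousAt (x := x)
  rcases lt_trichotomy (ℓ x) 0 with h | h | h
  · filter_upwards [hc.eventually_lt continuousAt_const h] with y hy _
    rw [sign_neg hy, sign_neg h]
  · exact Eventually.of_forall fun _ h' => absurd h h'
  · filter_upwards [continuousAt_const.eventually_lt hc h] with y hy _
    rw [sign_pos hy, sign_pos h]

theorem zero_of_mem (hy : y ∈ sgnC Φ x) {ℓ : E3 →ᵃ[ℝ] ℝ} (hl : ℓ ∈ Φ) (h0 : ℓ x = 0) : ℓ y = 0 :=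
  le_antisymm ((hy ℓ hl).2 h0.le) ((hy ℓ hl).1 h0.ge)

theorem lin_sub (ℓ : E3 →ᵃ[ℝ] ℝ) (y z : E3) : ℓ.linear (y - z) = ℓ y - ℓ z :=
  ℓ.linearMap_vsub y z

theorem exists_small {U : Set E3} (hU : U ∈ 𝓝 x) {γ : ℝ → E3} (hγ : Continuous γ) (h0 : γ 0 = x) :
    ∀ᶠ t in 𝓝[>] (0:ℝ), γ t ∈ U :=
  nhdsWithin_le_nhds (hγ.continuousAt.preimage_mem_nhds (h0.symm ▸ hU))

theorem mem_vectorSpan (hΦ : Φ.Finite) {v : E3} :
    v ∈ vectorSpan ℝ (sgnC Φ x) ↔ ∀ ℓ ∈ Φ, ℓ x = 0 → ℓ.linear v = 0 := by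
  constructor
  · intro hv ℓ hl h0
    have : vectorSpan ℝ (sgnC Φ x) ≤ LinearMap.ker ℓ.linear := by
      rw [vectorSpan_def, Submodule.span_le]
      rintro _ ⟨y, hy, z, hz, rfl⟩
      show ℓ.linear (y - z) = 0
      rw [lin_sub, zero_of_mem hy hl h0, zero_of_mem hz hl h0, sub_zero]
    exact this hv
  · intro hv
    obtain ⟨t, h1, h2⟩ := ((exists_small (near_sign hΦ x) (γ := fun t => x + t • v)
      (by fun_prop) (by simp)).and self_mem_nhdsWithin).exists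
    have h3 : x + t • v ∈ sgnC Φ x := sgnO_subset fun ℓ hl => by
      by_cases h0 : ℓ x = 0
      · have := lin_sub ℓ (x + t • v) x
        rw [add_sub_cancel_left, map_smul, hv ℓ hl h0, smul_zero, h0, sub_zero] at this
        rw [← this, h0]
      · exact h1 ℓ hl h0
    have h4 := vsub_mem_vectorSpan ℝ h3 (sgnO_subset mem_sgnO_self)
    rw [vsub_eq_sub, add_sub_cancel_left] at h4
    exact (Submodule.smul_mem_iff _ (ne_of_gt h2)).1 h4

theorem finrank_lt (hΦ : Φ.Finite) (hy : y ∈ sgnC Φ x) (hn : y ∉ sgnO Φ x) :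
    Module.finrank ℝ (vectorSpan ℝ (sgnC Φ y)) < Module.finrank ℝ (vectorSpan ℝ (sgnC Φ x)) := by
  refine Submodule.finrank_lt_finrank_of_lt (lt_of_le_of_ne (fun v hv => ?_) fun h => hn ?_)
  · rw [mem_vectorSpan hΦ] at hv ⊢
    exact fun ℓ hl h0 => hv ℓ hl (zero_of_mem hy hl h0)
  · have h1 := vsub_mem_vectorSpan ℝ (sgnO_subset (mem_sgnO_self (Φ := Φ) (x := x))) hy
    rw [← h, mem_vectorSpan hΦ] at h1
    intro ℓ hl
    rcases lt_trichotomy (ℓ y) 0 with h2 | h2 | h2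
    · rw [sign_neg h2, sign_neg (lt_of_not_ge fun h3 => absurd ((hy ℓ hl).1 h3) (not_le.2 h2))]
    · have h3 := h1 ℓ hl h2
      rw [vsub_eq_sub, lin_sub, h2, sub_zero] at h3
      rw [h2, h3]
    · rw [sign_pos h2, sign_pos (lt_of_not_ge fun h3 => absurd ((hy ℓ hl).2 h3) (not_le.2 h2))]

/-- the functions are multiples of integral forms in the coordinates `θ` -/
def Ad {κ : Type} (Λ : κ → E3 →ₗ[ℝ] ℝ) (θ : E3 → E3) (Φ : Set (E3 →ᵃ[ℝ] ℝ)) : Prop :=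
  ∀ ℓ ∈ Φ, ∃ (a : κ) (k : ℤ) (c : ℝ), c ≠ 0 ∧ ∀ y, ℓ y = c * (Λ a (θ y) - k)

variable {κ : Type} {Λ : κ → E3 →ₗ[ℝ] ℝ}

theorem Ad.intCut {θ : E3 ≃ᴬ[ℝ] E3} (h : Ad Λ θ Φ) (x : E3) : IntCut Λ (θ '' sgnC Φ x) := by
  intro y hy
  refine ⟨θ.symm y, fun ℓ hl => ?_, θ.apply_symm_apply y⟩
  obtain ⟨a, k, c, hc, e⟩ := h ℓ hl
  obtain ⟨h1, h2⟩ := hy a k
  simp only [forall_mem_image] at h1 h2
  rw [e (θ.symm y), θ.apply_symm_apply]
  rcases lt_or_gt_of_ne hc with hc | hc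
  · refine ⟨fun h0 => ?_, fun h0 => ?_⟩
    · have := h2 fun z hz => by
        have := (hz ℓ hl).1 h0
        rw [e] at this
        nlinarith
      nlinarith
    · have := h1 fun z hz => by
        have := (hz ℓ hl).2 h0
        rw [e] at this
        nlinarith
      nlinarith
  · refine ⟨fun h0 => ?_, fun h0 => ?_⟩
    · have := h1 fun z hz => by
        have := (hz ℓ hl).1 h0
        rw [e] at this
        nlinarith
      nlinarith
    · have := h2 fun z hz => by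
        have := (hz ℓ hl).2 h0
        rw [e] at this
        nlinarith
      nlinarith

theorem Ad.lines {θ : E3 ≃ᴬ[ℝ] E3} (h : Ad Λ θ Φ) (hΦ : Φ.Finite)
    (hd : Module.finrank ℝ (vectorSpan ℝ (sgnC Φ x)) ≤ 1) (hy : ∀ ℓ ∈ Φ, ℓ x = 0 → ℓ y = 0) :
    θ y ∈ Lines Λ := by
  obtain ⟨v, hv⟩ := finrank_le_one_iff.1 hd
  refine ⟨{a | ∃ ℓ ∈ Φ, ℓ x = 0 ∧ ∃ (k : ℤ) (c : ℝ), c ≠ 0 ∧ ∀ y, ℓ y = c * (Λ a (θ y) - k)},
    θ.toAffineEquiv.linear v, fun u hu => ?_, ?_⟩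
  · have h1 : θ.symm (θ x + u) - x ∈ vectorSpan ℝ (sgnC Φ x) := by
      rw [mem_vectorSpan hΦ]
      intro ℓ hl h0
      obtain ⟨a, k, c, hc, e⟩ := h ℓ hl
      rw [lin_sub, e, e, θ.apply_symm_apply, map_add, hu a ⟨ℓ, hl, h0, k, c, hc, e⟩]
      ring
    obtain ⟨t, ht⟩ := hv ⟨_, h1⟩
    refine ⟨t, ?_⟩
    have h2 : t • (v : E3) = θ.symm (θ x + u) - x := congrArg Subtype.val ht
    have h3 := θ.toAffineEquiv.toAffineMap.linearMap_vsub (θ.symm (θ x + u)) x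
    rw [vsub_eq_sub, ← h2, map_smul] at h3
    have h4 : θ.toAffineEquiv.toAffineMap (θ.symm (θ x + u)) = θ x + u := θ.apply_symm_apply _
    rw [h4] at h3
    have h5 : θ.toAffineEquiv.toAffineMap x = θ x := rfl
    rw [h5, vsub_eq_sub, add_sub_cancel_left] at h3
    exact h3.symm
  · rintro a ⟨ℓ, hl, h0, k, c, hc, e⟩
    have := hy ℓ hl h0
    rw [e] at this
    exact ⟨k, sub_eq_zero.1 ((mul_eq_zero.1 this).resolve_left hc)⟩

theorem smul_comm_eq (g : E3 →ₗ[ℝ] ℝ) (i : Fin 3) (a : ℝ) :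
    g (Pi.single i 1) • a = g (Pi.single i a) := by
  rw [smul_eq_mul, mul_comm, ← smul_eq_mul, ← map_smul, ← Pi.single_smul, smul_eq_mul, mul_one]

theorem exists_proj : ∃ π : ℝ →ₗ[ℚ] ℚ, ∀ q : ℚ, π q = q := by
  obtain ⟨π, h⟩ := LinearMap.exists_leftInverse_of_injective (Algebra.linearMap ℚ ℝ)
    (LinearMap.ker_eq_bot.2 (algebraMap ℚ ℝ).injective)
  exact ⟨π, fun q => LinearMap.congr_fun h q⟩

theorem rat_of_dim {w : E3} (hΦ : Φ.Finite)
    (h : ∀ ℓ ∈ Φ, ∃ (c : ℝ) (g : E3 →ₗ[ℝ] ℝ) (k : ℤ), c ≠ 0 ∧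
      (∀ i, ∃ q : ℚ, g (Pi.single i 1) = q) ∧ ∀ y, ℓ y = c * (g (y - w) - k))
    (hd : Module.finrank ℝ (vectorSpan ℝ (sgnC Φ x)) = 0) (k : Fin 3) :
    ∃ q : ℚ, x k = w k + q := by
  obtain ⟨π, hπ⟩ := exists_proj
  have h1 : (fun i => w i + (π (x i - w i) : ℝ)) - x ∈ vectorSpan ℝ (sgnC Φ x) := by
    rw [mem_vectorSpan hΦ]
    intro ℓ hl h0
    obtain ⟨c, g, a, hc, hq, e⟩ := h ℓ hl
    choose q hq using hq
    have e' : ∀ u, g u = ∑ i, (q i : ℝ) * u i := fun u => by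
      conv_lhs => rw [← Finset.univ_sum_single u, map_sum]
      refine Finset.sum_congr rfl fun i _ => ?_
      rw [← hq, ← smul_eq_mul, smul_comm_eq g i (u i)]
    rw [lin_sub, h0, sub_zero, e, e']
    have h2 := congrArg π (sub_eq_zero.1 ((mul_eq_zero.1 ((e x).symm.trans h0)).resolve_left hc))
    rw [e', map_sum, ← Rat.cast_intCast, hπ] at h2
    have h3 : ∀ i, π ((q i : ℝ) * (x - w) i) = q i * π (x i - w i) := fun i => by
      rw [← Rat.smul_def, map_smul, smul_eq_mul, Pi.sub_apply]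
    simp only [h3] at h2
    simp only [Pi.sub_apply, add_sub_cancel_left]
    rw [mul_eq_zero, sub_eq_zero]
    right
    exact_mod_cast h2
  rw [Submodule.finrank_eq_zero.1 hd, Submodule.mem_bot, sub_eq_zero] at h1
  exact ⟨_, (congrFun h1 k).symm⟩

theorem Ad.mem {θ : E3 → E3} (h : Ad Λ θ Φ) (hy : ∀ (a : κ) (k : ℤ),
    ((k : ℝ) ≤ Λ a (θ x) → (k : ℝ) ≤ Λ a (θ y)) ∧ (Λ a (θ x) ≤ k → Λ a (θ y) ≤ k)) :
    y ∈ sgnC Φ x := by
  intro ℓ hl
  obtain ⟨a, k, c, hc, e⟩ := h ℓ hl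
  obtain ⟨h1, h2⟩ := hy a k
  rw [e, e]
  rcases lt_or_gt_of_ne hc with hc | hc
  · exact ⟨fun h0 => by nlinarith [h2 (by nlinarith)], fun h0 => by nlinarith [h1 (by nlinarith)]⟩
  · exact ⟨fun h0 => by nlinarith [h1 (by nlinarith)], fun h0 => by nlinarith [h2 (by nlinarith)]⟩

/-- a complex whose cells are given by sign conditions -/
structure SC (K : RCx E3) (Ψ : E3 → Set (E3 →ᵃ[ℝ] ℝ)) : Prop where
  cvx : K.Cvx
  fin : ∀ x ∈ K.carrier, (Ψ x).Finite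
  oc : ∀ i, ∀ x ∈ K.ocell i, K.ocell i = sgnO (Ψ x) x
  cc : ∀ i, ∀ x ∈ K.ocell i, K.cell i = sgnC (Ψ x) x
  mono : ∀ i, ∀ x ∈ K.ocell i, ∀ y ∈ K.cell i, Ψ x ⊆ Ψ y

variable {K : RCx E3} {Ψ : E3 → Set (E3 →ᵃ[ℝ] ℝ)} {i : K.ι}

theorem SC.finite (h : SC K Ψ) (hx : x ∈ K.cell i) : (Ψ x).Finite :=
  h.fin x (K.cell_subset_carrier i hx)

theorem SC.dim (h : SC K Ψ) (hx : x ∈ K.ocell i) :
    Module.finrank ℝ (vectorSpan ℝ (sgnC (Ψ x) x)) = K.dim i := by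
  rw [← h.cc i x hx, (h.cvx i).2.2]

theorem line_mem {t : ℝ} (hy : y ∈ sgnC Φ x) (ht : t ∈ Ioc (0:ℝ) 1) :
    AffineMap.lineMap y x t ∈ sgnO Φ x := by
  intro ℓ hl
  rw [AffineMap.apply_lineMap, AffineMap.lineMap_apply_ring]
  rcases lt_trichotomy (ℓ x) 0 with h | h | h
  · have := (hy ℓ hl).2 h.le
    rw [sign_neg h, sign_neg (by nlinarith [ht.1, ht.2])]
  · rw [zero_of_mem hy hl h, h]
    simp
  · have := (hy ℓ hl).1 h.le
    rw [sign_pos h, sign_pos (by nlinarith [ht.1, ht.2])]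

/-- the number of cells through a point -/
theorem SC.mult (h : SC K Ψ) [Fintype κ] (g : κ → E3 → ℝ)
    (hg : ∀ ℓ ∈ Ψ x, ∃ (a : κ) (c : ℝ), ∀ y, ℓ y - ℓ x = c * (g a y - g a x)) :
    {i | x ∈ K.cell i}.Finite ∧ {i | x ∈ K.cell i}.ncard ≤ 3 ^ Fintype.card κ := by
  classical
  choose p hp using K.ocell_nonempty
  have hinj : InjOn (fun i a => SignType.sign (g a (p i) - g a x)) {i | x ∈ K.cell i} := by
    intro i hi j hj e
    have hi' : x ∈ sgnC (Ψ (p i)) (p i) := h.cc i _ (hp i) ▸ hi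
    have hj' : x ∈ sgnC (Ψ (p j)) (p j) := h.cc j _ (hp j) ▸ hj
    have hn := near_sign (h.finite hi) x
    obtain ⟨t, ⟨h1, h2⟩, h3⟩ := (((exists_small hn (γ := AffineMap.lineMap x (p i))
      (by fun_prop) (by simp)).and (exists_small hn (γ := AffineMap.lineMap x (p j))
      (by fun_prop) (by simp))).and (Ioc_mem_nhdsGT (zero_lt_one' ℝ))).exists
    have a1 : AffineMap.lineMap x (p i) t ∈ K.ocell i := h.oc i _ (hp i) ▸ line_mem hi' h3
    have a2 : AffineMap.lineMap x (p j) t ∈ K.ocell j := h.oc j _ (hp j) ▸ line_mem hj' h3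
    refine K.ocell_unique ?_ a2
    rw [h.oc i _ a1]
    intro ℓ hl
    have hl' := h.mono i _ a1 x hi hl
    by_cases h0 : ℓ x = 0
    · obtain ⟨a, c, e'⟩ := hg ℓ hl'
      have b1 := e' (p i)
      have b2 := e' (p j)
      rw [h0, sub_zero] at b1 b2
      rw [AffineMap.apply_lineMap, AffineMap.apply_lineMap, h0, AffineMap.lineMap_apply_ring,
        AffineMap.lineMap_apply_ring, b1, b2]
      simp only [mul_zero, zero_add, sign_mul]
      rw [show SignType.sign (g a (p i) - g a x) = SignType.sign (g a (p j) - g a x) from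
        congrFun e a]
    · rw [h1 ℓ hl' h0, h2 ℓ hl' h0]
  refine ⟨Finite.of_finite_image (toFinite _) hinj, ?_⟩
  rw [← hinj.ncard_image]
  refine (ncard_le_ncard (subset_univ _)).trans ?_
  rw [ncard_univ, Nat.card_eq_fintype_card, Fintype.card_fun]
  rfl

end Me

end P073
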