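import Vale.Agent.P073Z.MESH.Defs

/-!
# Density of the lines and uniform charts for the source mesh
-/

open Set Metric Topology Filter MeasureTheory
open scoped ENNReal NNReal

namespace P073

namespace Me

/-- the common kernel of the forms in `A` lies in a line -/
def ThinSet {κ : Type} (Λ : κ → E3 →ₗ[ℝ] ℝ) (A : Set κ) : Prop :=
  ∃ v : E3, ∀ u, (∀ a ∈ A, Λ a u = 0) → ∃ t : ℝ, u = t • v

/-- one line of the family -/
def oneLine {κ : Type} (Λ : κ → E3 →ₗ[ℝ] ℝ) (A : Set κ) (k : κ → ℤ) : Set E3 :=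
  {x | ThinSet Λ A ∧ ∀ a ∈ A, Λ a x = k a}

theorem isClosed_oneLine {κ : Type} (Λ : κ → E3 →ₗ[ℝ] ℝ) (A : Set κ) (k : κ → ℤ) :
    IsClosed (oneLine Λ A k) := by
  have e : oneLine Λ A k = {_x | ThinSet Λ A} ∩ ⋂ a ∈ A, {x | Λ a x = k a} := by
    ext x
    simp only [oneLine, mem_ofPred_eq, mem_inter_iff, mem_iInter]
  rw [e]
  refine isClosed_const.inter (isClosed_biInter fun a _ => ?_)
  exact isClosed_eq (Λ a).continuous_of_finiteDimensional continuous_const

theorem lines_eq {κ : Type} (Λ : κ → E3 →ₗ[ℝ] ℝ) :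
    Lines Λ = ⋃ (A : Set κ) (k : κ → ℤ), oneLine Λ A k := by
  classical
  ext x
  simp only [mem_iUnion]
  constructor
  · rintro ⟨A, v, h1, h2⟩
    refine ⟨A, fun a => if h : a ∈ A then (h2 a h).choose else 0, ⟨v, h1⟩, fun a ha => ?_⟩
    simp only [dif_pos ha]
    exact (h2 a ha).choose_spec
  · rintro ⟨A, k, ⟨v, h1⟩, h2⟩
    exact ⟨A, v, h1, fun a ha => ⟨k a, h2 a ha⟩⟩

theorem measure_oneLine {κ : Type} (Λ : κ → E3 →ₗ[ℝ] ℝ) (A : Set κ) (k : κ → ℤ) (y : E3) :
    μH[1] (oneLine Λ A k ∩ closedBall y 1) ≤ 4 := by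
  rcases (oneLine Λ A k ∩ closedBall y 1).eq_empty_or_nonempty with h | ⟨p, ⟨⟨v, hv⟩, hp⟩, hpy⟩
  · rw [h, measure_empty]
    exact bot_le
  set w : E3 := ‖v‖⁻¹ • v with hw
  have hw1 : ‖w‖ ≤ 1 := by
    rw [hw, norm_smul, norm_inv, norm_norm]
    exact inv_mul_le_one_of_le₀ le_rfl (norm_nonneg _)
  have hL : LipschitzWith 1 (fun t : ℝ => p + t • w) := by
    refine LipschitzWith.of_dist_le_mul fun s t => ?_
    rw [dist_eq_norm, add_sub_add_left_eq_sub, ← sub_smul, norm_smul, NNReal.coe_one, one_mul,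
      dist_eq_norm]
    exact mul_le_of_le_one_right (norm_nonneg _) hw1
  have hsub : oneLine Λ A k ∩ closedBall y 1 ⊆ (fun t : ℝ => p + t • w) '' Icc (-2) 2 := by
    rintro x ⟨⟨-, hx⟩, hxy⟩
    obtain ⟨t, ht⟩ := hv (x - p) fun a ha => by rw [map_sub, hx a ha, hp a ha, sub_self]
    have hd : ‖x - p‖ ≤ 2 := by
      rw [← dist_eq_norm]
      have := dist_triangle_right x p y
      rw [mem_closedBall] at hxy hpy
      linarith
    refine ⟨t * ‖v‖, ?_, ?_⟩
    · rw [ht, norm_smul, Real.norm_eq_abs] at hd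
      have e : |t * ‖v‖| = |t| * ‖v‖ := by rw [abs_mul, abs_norm]
      exact abs_le.1 (e ▸ hd)
    · show p + (t * ‖v‖) • w = x
      have e : (t * ‖v‖) • w = t • v := by
        by_cases h0 : v = 0
        · rw [hw, h0]
          simp
        · rw [hw, smul_smul, mul_assoc, mul_inv_cancel₀ (norm_ne_zero_iff.2 h0), mul_one]
      rw [e, ← ht, add_sub_cancel]
  refine (measure_mono hsub).trans ((hL.hausdorffMeasure_image_le zero_le_one _).trans ?_)
  rw [hausdorffMeasure_real, Real.volume_Icc]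
  norm_num

theorem exists_density {κ : Type} [Finite κ] (Λ : κ → E3 →ₗ[ℝ] ℝ) :
    ∃ D : ℝ≥0, ∀ y, μH[1] (Lines Λ ∩ closedBall y 1) ≤ D := by
  classical
  have := Fintype.ofFinite κ
  obtain ⟨N, hN⟩ : ∃ N : ℕ, ∀ a u, |Λ a u| ≤ N * ‖u‖ := by
    obtain ⟨N, hN⟩ := exists_nat_ge (∑ a, ‖LinearMap.toContinuousLinearMap (Λ a)‖)
    refine ⟨N, fun a u => ?_⟩
    have h1 := (LinearMap.toContinuousLinearMap (Λ a)).le_opNorm u
    have h2 : ‖LinearMap.toContinuousLinearMap (Λ a)‖ ≤ N :=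
      (Finset.single_le_sum (f := fun a => ‖LinearMap.toContinuousLinearMap (Λ a)‖)
        (fun _ _ => norm_nonneg _) (Finset.mem_univ a)).trans hN
    exact h1.trans (mul_le_mul_of_nonneg_right h2 (norm_nonneg _))
  let J : Finset ℤ := Finset.Icc (-(N : ℤ)) (N + 1)
  refine ⟨(Fintype.card (Set κ × (κ → J)) : ℝ≥0) * 4, fun y => ?_⟩
  have hsub : Lines Λ ∩ closedBall y 1 ⊆ ⋃ q : Set κ × (κ → J),
      (oneLine Λ q.1 (fun a => ⌊Λ a y⌋ + (q.2 a : ℤ)) ∩ closedBall y 1) := by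
    rintro x ⟨hx, hxy⟩
    rw [lines_eq] at hx
    simp only [mem_iUnion] at hx
    obtain ⟨A, k, hA, hk⟩ := hx
    have hJ : ∀ a ∈ A, k a - ⌊Λ a y⌋ ∈ J := by
      intro a ha
      have h1 := hN a (x - y)
      have h2 : ‖x - y‖ ≤ 1 := by rw [← dist_eq_norm]; exact hxy
      have h3 : |Λ a (x - y)| ≤ N :=
        h1.trans (mul_le_of_le_one_right (Nat.cast_nonneg _) h2)
      rw [map_sub, hk a ha, abs_le] at h3
      have h4 := Int.floor_le (Λ a y)
      have h5 := Int.lt_floor_add_one (Λ a y)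
      have h6 : ((-(N : ℤ) : ℤ) : ℝ) ≤ ((k a - ⌊Λ a y⌋ : ℤ) : ℝ) := by
        push_cast
        linarith [h3.1]
      have h7 : ((k a - ⌊Λ a y⌋ : ℤ) : ℝ) ≤ (((N : ℤ) + 1 : ℤ) : ℝ) := by
        push_cast
        linarith [h3.2]
      exact Finset.mem_Icc.2 ⟨Int.cast_le.1 h6, Int.cast_le.1 h7⟩
    have h0 : (0 : ℤ) ∈ J := Finset.mem_Icc.2 ⟨by omega, by omega⟩
    refine mem_iUnion.2 ⟨(A, fun a => if h : a ∈ A then ⟨_, hJ a h⟩ else ⟨0, h0⟩), ⟨hA, ?_⟩, hxy⟩
    intro a ha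
    have ha' : a ∈ A := ha
    simp only [dif_pos ha']
    rw [hk a ha']
    push_cast
    ring
  refine (measure_mono hsub).trans ((measure_iUnion_fintype_le _ _).trans ?_)
  refine (Finset.sum_le_sum fun q _ => measure_oneLine Λ _ _ y).trans ?_
  rw [Finset.sum_const, Finset.card_univ, nsmul_eq_mul]
  push_cast
  exact le_rfl

theorem lines_proj : Lines (fun i : Fin 3 => (LinearMap.proj i : E3 →ₗ[ℝ] ℝ)) ⊆ gridLines := by
  classical
  rintro x ⟨A, v, h1, h2⟩
  have key : ∀ i j : Fin 3, i ∉ A → j ∉ A → i = j := by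
    intro i j hi hj
    by_contra hij
    have hs : ∀ l : Fin 3, l ∉ A → ∃ t : ℝ, (Pi.single l 1 : E3) = t • v := fun l hl =>
      h1 _ fun a ha => by
        have : a ≠ l := fun e => hl (e ▸ ha)
        simp [Pi.single_eq_of_ne this]
    obtain ⟨s, hs1⟩ := hs i hi
    obtain ⟨t, ht1⟩ := hs j hj
    have e1 := congrFun hs1 i
    have e2 := congrFun hs1 j
    have e3 := congrFun ht1 j
    simp only [Pi.single_eq_same, Pi.smul_apply, smul_eq_mul] at e1 e3
    rw [Pi.single_eq_of_ne (Ne.symm hij), Pi.smul_apply, smul_eq_mul] at e2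
    rcases mul_eq_zero.1 e2.symm with h | h
    · rw [h, zero_mul] at e1
      exact one_ne_zero e1
    · rw [h, mul_zero] at e3
      exact one_ne_zero e3
  by_cases h : ∃ i, i ∉ A
  · obtain ⟨i, hi⟩ := h
    refine ⟨i, fun j hj => h2 j ?_⟩
    by_contra hj'
    exact hj (key j i hj' hi)
  · refine ⟨0, fun j _ => h2 j ?_⟩
    by_contra hj'
    exact h ⟨j, hj'⟩

theorem lines : LINES := by
  refine ⟨fun Λ => ⟨?_, exists_density Λ⟩, lines_proj⟩
  rw [lines_eq]
  exact MeasurableSet.iUnion fun A => MeasurableSet.iUnion fun k =>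
    (isClosed_oneLine Λ A k).measurableSet

theorem biChart_mono {E : Type} [NormedAddCommGroup E] [NormedSpace ℝ E] {n : ℕ} {C B : Set E}
    {M M' : ℝ≥0} (h : BiChart n C B M) (hM : M ≤ M') : BiChart n C B M' := by
  obtain ⟨h1, φ, h2, h3, h4⟩ := h
  exact ⟨h1, φ, h2, h3.weaken hM, h4.weaken hM⟩

theorem biChart_add {E : Type} [NormedAddCommGroup E] [NormedSpace ℝ E] {n : ℕ} {C B : Set E}
    {M : ℝ≥0} (h : BiChart n C B M) (v : E) :
    BiChart n ((fun x => x + v) '' C) ((fun x => x + v) '' B) M := by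
  obtain ⟨h1, φ, h2, h3, h4⟩ := h
  have hm : MapsTo (fun x => x - v) ((fun x => x + v) '' C) C := by
    rintro _ ⟨x, hx, rfl⟩
    simpa using hx
  let τ : ConHomeo C ((fun x => x + v) '' C) :=
    { toFun := fun x => x + v
      invFun := fun x => x - v
      mapsTo := mapsTo_image _ _
      mapsTo_inv := hm
      left_inv := fun x _ => by simp
      right_inv := fun x _ => by simp
      cont := (continuous_id.add continuous_const).continuousOn
      cont_inv := (continuous_id.sub continuous_const).continuousOn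
      conical := (conicalOn_id φ.conicalSet_left).add (conicalOn_const v φ.conicalSet_left) }
  refine ⟨image_mono h1, τ.symm.trans φ, ?_, ?_, ?_⟩
  · rw [← h2, image_image]
    refine image_congr fun x _ => ?_
    show φ.toFun (x + v - v) = φ.toFun x
    rw [add_sub_cancel_right]
  · refine LipschitzOnWith.of_dist_le_mul fun x hx y hy => ?_
    have := h3.dist_le_mul _ (hm hx) _ (hm hy)
    rw [dist_sub_right] at this
    exact this
  · refine LipschitzOnWith.of_dist_le_mul fun x hx y hy => ?_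
    have := h4.dist_le_mul _ hx _ hy
    show dist (φ.invFun x + v) (φ.invFun y + v) ≤ _
    rw [dist_add_right]
    exact this

theorem intCut_eq {κ : Type} [Fintype κ] [DecidableEq (E3 →ₗ[ℝ] ℝ)] (Λ : κ → E3 →ₗ[ℝ] ℝ)
    {X : Set E3} (hX : IsCompact X) (hne : X.Nonempty) (h : IntCut Λ X) :
    X = {x | ∀ ℓ ∈ Finset.univ.image Λ, ((⌊sInf (ℓ '' X)⌋ : ℤ) : ℝ) ≤ ℓ x ∧
      ℓ x ≤ ((⌈sSup (ℓ '' X)⌉ : ℤ) : ℝ)} := by
  ext y
  constructor
  · intro hy ℓ _
    have hc : IsCompact (ℓ '' X) := hX.image ℓ.continuous_of_finiteDimensional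
    exact ⟨(Int.floor_le _).trans (csInf_le hc.bddBelow (mem_image_of_mem _ hy)),
      (le_csSup hc.bddAbove (mem_image_of_mem _ hy)).trans (Int.le_ceil _)⟩
  · intro hy
    refine h y fun a k => ?_
    obtain ⟨h1, h2⟩ := hy (Λ a) (Finset.mem_image_of_mem Λ (Finset.mem_univ a))
    constructor
    · intro hk
      have : (k : ℝ) ≤ sInf (Λ a '' X) :=
        le_csInf (hne.image _) (by rintro _ ⟨c, hc, rfl⟩; exact hk c hc)
      exact (Int.cast_le.2 (Int.le_floor.2 this)).trans h1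
    · intro hk
      have : sSup (Λ a '' X) ≤ (k : ℝ) :=
        csSup_le (hne.image _) (by rintro _ ⟨c, hc, rfl⟩; exact hk c hc)
      exact h2.trans (Int.cast_le.2 (Int.ceil_le.2 this))

theorem chart_of (h : SHAPE) : CHART := by
  classical
  intro κ _ Λ R hΛ
  have := Fintype.ofFinite κ
  obtain ⟨M, hM⟩ := h (Finset.univ.image Λ) R (by
    intro ℓ hℓ i
    obtain ⟨a, -, rfl⟩ := Finset.mem_image.1 hℓ
    exact hΛ a i)
  refine ⟨M, fun M' hM' C θ n v hC hne hI hR hn => ?_⟩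
  have h1 := hM _ _ (θ '' C) (intCut_eq Λ (hC.image θ.continuous) (hne.image _) hI) (hne.image _)
    (by rintro _ ⟨x, hx, rfl⟩ _ ⟨y, hy, rfl⟩; exact hR x hx y hy)
  have h2 := biChart_add (biChart_mono h1 hM') v
  have e1 : ∀ S : Set E3, (fun x => x + v) '' (θ '' S) = n '' S := fun S => by
    rw [image_image]
    exact image_congr fun x _ => (hn x).symm
  have e2 : Module.finrank ℝ (vectorSpan ℝ (θ '' C)) = Module.finrank ℝ (vectorSpan ℝ C) := by
    have e := AffineMap.map_vectorSpan (s := C) θ.toAffineEquiv.toAffineMap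
    have e' : (θ.toAffineEquiv.toAffineMap : E3 → E3) = θ := rfl
    rw [e'] at e
    rw [← e]
    exact LinearEquiv.finrank_map_eq θ.toAffineEquiv.linear _
  rw [ContinuousAffineEquiv.intrinsicFrontier_image, e1, e1, e2] at h2
  exact h2

end Me

end P073
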