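import Vale.Agent.P073Z.MESH.Gen

/-!
# The geometry of the family of cubes
-/

open Set Metric Topology Filter MeasureTheory
open scoped ENNReal NNReal

namespace P073

namespace Me

theorem mem_ucube {z : Fin 3 → ℤ} {ξ : E3} :
    ξ ∈ ucube z ↔ ∀ i, (z i : ℝ) ≤ ξ i ∧ ξ i ≤ z i + 1 :=
  ⟨fun h i => ⟨h.1 i, h.2 i⟩, fun h => ⟨fun i => (h i).1, fun i => (h i).2⟩⟩

theorem mem_uface {z : Fin 3 → ℤ} {J : Finset (Fin 3)} {ξ : E3} : ξ ∈ uface z J ↔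
    ∀ i, (z i : ℝ) ≤ ξ i ∧ ξ i ≤ ((z i + if i ∈ J then 0 else 1 : ℤ) : ℝ) := by
  constructor
  · rintro ⟨h1, h2⟩ i
    refine ⟨h1.1 i, ?_⟩
    split_ifs with h
    · simp [h2 i h]
    · push_cast
      exact h1.2 i
  · intro h
    refine ⟨mem_ucube.2 fun i => ⟨(h i).1, (h i).2.trans ?_⟩, fun i hi => ?_⟩
    · split_ifs <;> simp
    · have := (h i).2
      rw [if_pos hi, add_zero] at this
      exact le_antisymm this (h i).1

theorem uface_empty (z : Fin 3 → ℤ) : uface z ∅ = ucube z := by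
  ext ξ
  simp [uface]

theorem dist_ucube {z : Fin 3 → ℤ} {ξ ζ : E3} (h : ξ ∈ ucube z) (h' : ζ ∈ ucube z) :
    dist ξ ζ ≤ 1 := by
  refine (dist_pi_le_iff zero_le_one).2 fun i => ?_
  rw [Real.dist_eq, abs_le]
  have := mem_ucube.1 h i
  have := mem_ucube.1 h' i
  constructor <;> linarith

theorem floor_mem (ξ : E3) : ξ ∈ ucube fun i => ⌊ξ i⌋ :=
  mem_ucube.2 fun _ => ⟨Int.floor_le _, (Int.lt_floor_add_one _).le⟩

theorem ceil_mem (ξ : E3) : ξ ∈ ucube fun i => ⌈ξ i⌉ - 1 :=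
  mem_ucube.2 fun i => by
    push_cast
    exact ⟨by linarith [Int.ceil_lt_add_one (ξ i)], by linarith [Int.le_ceil (ξ i)]⟩

theorem finite_cubes {B : Set E3} (hB : Bornology.IsBounded B) :
    {z | (ucube z ∩ B).Nonempty}.Finite := by
  obtain ⟨R, hR⟩ := hB.exists_norm_le
  refine (Set.finite_Icc (fun _ : Fin 3 => -⌈R⌉ - 1) (fun _ => ⌈R⌉)).subset ?_
  rintro z ⟨ξ, h1, h2⟩
  have h3 : ∀ i, |ξ i| ≤ R := fun i => (norm_le_pi_norm ξ i).trans (hR ξ h2)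
  have h4 := Int.le_ceil R
  refine ⟨fun i => ?_, fun i => ?_⟩
  · have := (mem_ucube.1 h1 i).2
    have := (abs_le.1 (h3 i)).1
    have : ((-⌈R⌉ - 1 : ℤ) : ℝ) ≤ z i := by push_cast; linarith
    exact_mod_cast this
  · have := (mem_ucube.1 h1 i).1
    have := (abs_le.1 (h3 i)).2
    have : (z i : ℝ) ≤ (⌈R⌉ : ℤ) := by linarith
    exact_mod_cast this

theorem exists_aff (e : E3 ≃ₗ[ℝ] E3) (w : E3) : ∃ θ : E3 ≃ᴬ[ℝ] E3, ∀ x, θ x = e (x - w) :=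
  ⟨((AffineEquiv.constVAdd ℝ E3 (-w)).trans e.toAffineEquiv).toContinuousAffineEquiv, fun x => by
    show e (-w + x) = _
    rw [neg_add_eq_sub]⟩

theorem exists_smul {c : ℝ} (hc : c ≠ 0) (θ : E3 ≃ᴬ[ℝ] E3) :
    ∃ θ' : E3 ≃ᴬ[ℝ] E3, ∀ x, θ' x = c • θ x := by
  obtain ⟨σ, h⟩ := exists_aff (LinearEquiv.smulOfNeZero ℝ E3 c hc) 0
  exact ⟨θ.trans σ, fun x => by
    show σ (θ x) = _
    rw [h, sub_zero]
    rfl⟩

variable (P : Par) (Ω : Set E3)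

/-- dyadic coordinates -/
noncomputable def dy (k : ℕ) (x : E3) : E3 := (2:ℝ) ^ k • (x - P.w)

/-- the unit of length near `K j` -/
noncomputable def un (j : Fin P.N) : ℝ := (P.T j).b * P.η

/-- near `K j` -/
def Nr (j : Fin P.N) (r : ℝ) (x : E3) : Prop := ∃ y ∈ P.K j, dist x y < r * un P j

/-- core cubes -/
def core (j : Fin P.N) (z : Fin 3 → ℤ) : Prop := ∃ y, Nr P j 10 y ∧ P.nu j y ∈ ucube z

/-- the union of the core cubes -/
def Co (j : Fin P.N) (x : E3) : Prop := ∃ z, core P j z ∧ P.nu j x ∈ ucube z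

/-- the zones -/
def zone (k : ℕ) (y : E3) : Prop :=
  y ∈ Ω ∧ (2:ℝ)⁻¹ ^ k ≤ P.ς y ∧ (P.k₀ < k → P.ς y ≤ 2 * (2:ℝ)⁻¹ ^ k)

/-- admissible dyadic cubes -/
def cube (k : ℕ) (z : Fin 3 → ℤ) : Prop := P.k₀ ≤ k ∧ (∃ y, zone P Ω k y ∧ dy P k y ∈ ucube z) ∧
  ∃ y, dy P k y ∈ ucube z ∧ ∀ j, ¬ Co P j y

/-- the union of the cubes of scale `k` -/
def Cb (k : ℕ) (x : E3) : Prop := ∃ z, cube P Ω k z ∧ dy P k x ∈ ucube z

variable {P Ω} {j j' : Fin P.N} {k k' : ℕ} {x y : E3} {z : Fin 3 → ℤ} {r s : ℝ}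

theorem η_pos : 0 < P.η := by unfold Par.η; positivity

theorem η_le_un : P.η ≤ un P j :=
  le_mul_of_one_le_left η_pos.le (by exact_mod_cast (P.T j).b_pos)

theorem un_pos : 0 < un P j := η_pos.trans_le η_le_un

theorem pow_le_η (h : P.k₀ ≤ k) : (2:ℝ)⁻¹ ^ k ≤ P.η :=
  pow_le_pow_of_le_one (by norm_num) (by norm_num) h

theorem dist_dy (k : ℕ) (x y : E3) : dist x y = (2:ℝ)⁻¹ ^ k * dist (dy P k x) (dy P k y) := by
  unfold dy
  rw [dist_smul₀, dist_sub_right, Real.norm_of_nonneg (by positivity), ← mul_assoc, ← mul_pow]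
  simp

theorem dist_cube (hx : dy P k x ∈ ucube z) (hy : dy P k y ∈ ucube z) :
    dist x y ≤ (2:ℝ)⁻¹ ^ k := by
  rw [dist_dy (P := P) k]
  exact mul_le_of_le_one_right (by positivity) (dist_ucube hx hy)

theorem dist_nu (h : P.Ok Ω) (j : Fin P.N) (x y : E3) :
    dist x y ≤ un P j * dist (P.nu j x) (P.nu j y) := by
  have hη := η_pos (P := P)
  have h1 : ‖(P.T j).L.symm (x - y)‖ ≤ P.η * dist (P.nu j x) (P.nu j y) := by
    refine (pi_norm_le_iff_of_nonneg (by positivity)).2 fun i => ?_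
    have h2 := dist_le_pi_dist (P.nu j x) (P.nu j y) i
    have hm : (1:ℝ) ≤ P.m j := by exact_mod_cast h.m_pos j
    have h3 : 0 < (if (i : ℕ) < (P.T j).r then P.η / P.m j else P.η) ∧
        (if (i : ℕ) < (P.T j).r then P.η / P.m j else P.η) ≤ P.η := by
      split_ifs
      · exact ⟨by positivity, div_le_self hη.le hm⟩
      · exact ⟨hη, le_rfl⟩
    have h4 : (P.T j).L.symm (x - y) i = (P.T j).L.symm (x - P.w) i - (P.T j).L.symm (y - P.w) i := by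
      rw [← Pi.sub_apply, ← map_sub, sub_sub_sub_cancel_right]
    unfold Par.nu at h2
    rw [Real.dist_eq, ← sub_div, abs_div, abs_of_pos h3.1, div_le_iff₀ h3.1, ← h4] at h2
    refine h2.trans ?_
    rw [mul_comm]
    exact mul_le_mul_of_nonneg_right h3.2 dist_nonneg
  have h2 := ((P.T j).L : E3 →L[ℝ] E3).le_opNorm ((P.T j).L.symm (x - y))
  rw [ContinuousLinearEquiv.coe_coe, ContinuousLinearEquiv.apply_symm_apply] at h2
  rw [dist_eq_norm, un, mul_assoc]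
  exact h2.trans (mul_le_mul (P.T j).normL h1 (norm_nonneg _) (by positivity))

theorem dist_core (h : P.Ok Ω) (hx : P.nu j x ∈ ucube z) (hy : P.nu j y ∈ ucube z) :
    dist x y ≤ un P j :=
  (dist_nu h j x y).trans (mul_le_of_le_one_right un_pos.le (dist_ucube hx hy))

theorem Nr.add (h : Nr P j r x) (hd : dist y x ≤ s * un P j) : Nr P j (r + s) y := by
  obtain ⟨p, hp, h⟩ := h
  exact ⟨p, hp, by linarith [dist_triangle y x p]⟩

theorem Nr.mono (h : Nr P j r x) (hr : r ≤ s) : Nr P j s x := by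
  obtain ⟨p, hp, h⟩ := h
  exact ⟨p, hp, h.trans_le (mul_le_mul_of_nonneg_right hr un_pos.le)⟩

theorem Nr.step (h : Nr P j r x) (hd : dist y x ≤ un P j) (hs : r + 1 ≤ s) : Nr P j s y :=
  (h.add (s := 1) (by rwa [one_mul])).mono hs

theorem mem_U : x ∈ P.U j ↔ Nr P j 20 x := by
  unfold Par.U Nr un
  rw [mem_thickening_iff, mul_assoc]

theorem Nr.big (h : P.Ok Ω) (hx : Nr P j 100 x) : x ∈ Ω ∧ 10 * un P j ≤ P.ς x := by
  have := h.big j x (thickening_subset_cthickening _ _ (mem_thickening_iff.2 (by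
    rw [mul_assoc]; exact hx)))
  rwa [mul_assoc] at this

theorem Nr.eq (h : P.Ok Ω) (hx : Nr P j 100 x) (hx' : Nr P j' 100 x) : j = j' := by
  by_contra hne
  obtain ⟨p, hp, h1⟩ := hx
  obtain ⟨q, hq, h2⟩ := hx'
  have h3 := h.sep j j' hne p hp q hq
  have h4 := dist_triangle_left p q x
  have h5 := un_pos (P := P) (j := j)
  have h6 := un_pos (P := P) (j := j')
  unfold un at *
  nlinarith

theorem Co.nr (h : P.Ok Ω) (hx : Co P j x) : Nr P j 11 x := by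
  obtain ⟨z, ⟨y, h1, h2⟩, h3⟩ := hx
  exact h1.step (dist_core h h3 h2) (by norm_num)

theorem Nr.co (hx : Nr P j 10 x) : Co P j x := ⟨_, ⟨x, hx, floor_mem _⟩, floor_mem _⟩

theorem inner_core (hz : z ∈ P.Inner j) : core P j z := by
  obtain ⟨y, h1, h2⟩ := hz
  exact ⟨y, ⟨y, h1, by rw [dist_self]; linarith [un_pos (P := P) (j := j)]⟩, h2⟩

theorem buf_nr (h : P.Ok Ω) (hx : x ∈ P.BufSet j) : Nr P j 5 x := by
  obtain ⟨z, h1, h2⟩ := hx
  obtain ⟨ξ, h3, h4⟩ := mem_thickening_iff.1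
    (cthickening_subset_thickening' (δ₂ := 3.5) (by norm_num) (by norm_num) _ (h1 h2))
  obtain ⟨z', ⟨y, h5, h6⟩, h7⟩ := mem_iUnion₂.1 h3
  refine ⟨y, h5, (dist_nu h j x y).trans_lt ?_⟩
  rw [mul_comm]
  refine mul_lt_mul_of_pos_right ?_ un_pos
  linarith [dist_triangle (P.nu j x) ξ (P.nu j y), dist_ucube h7 h6]

theorem fine_buf (hx : x ∈ P.Fine j) : x ∈ P.BufSet j := by
  obtain ⟨z, h1, h2⟩ := hx
  exact ⟨z, (subset_biUnion_of_mem (u := ucube) h1).trans (self_subset_cthickening _), h2.1⟩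

theorem lip (h : P.Ok Ω) (x y : E3) : |P.ς x - P.ς y| ≤ dist x y / 10 := by
  have := h.lip.dist_le_mul x y
  rw [Real.dist_eq] at this
  refine this.trans (le_of_eq ?_)
  push_cast
  ring

theorem Cb.facts (h : P.Ok Ω) (hx : Cb P Ω k x) : P.k₀ ≤ k ∧ x ∈ Ω ∧
    9 / 10 * (2:ℝ)⁻¹ ^ k ≤ P.ς x ∧ (P.k₀ < k → P.ς x ≤ 21 / 10 * (2:ℝ)⁻¹ ^ k) := by
  obtain ⟨z, ⟨h1, ⟨y, ⟨h2, h3, h4⟩, h5⟩, -⟩, h6⟩ := hx
  have h7 := dist_cube h6 h5
  have h8 := abs_le.1 (lip h x y)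
  exact ⟨h1, (h.pos y h2).2 (h7.trans h3), by linarith [h8.1], fun hk => by
    linarith [h8.2, h4 hk]⟩

theorem Cb.not_nr (hx : Cb P Ω k x) : ¬ Nr P j 9 x := by
  obtain ⟨z, ⟨h1, -, y, h2, h3⟩, h4⟩ := hx
  exact fun hn => h3 j (hn.step (((dist_cube h2 h4).trans (pow_le_η h1)).trans η_le_un)
    (by norm_num)).co

theorem Cb.eq_of_nr (h : P.Ok Ω) (hx : Cb P Ω k x) (hn : Nr P j 100 x) : k = P.k₀ := by
  obtain ⟨h1, -, -, h2⟩ := hx.facts h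
  by_contra hne
  have h3 := h2 (lt_of_le_of_ne h1 (Ne.symm hne))
  have h4 := (hn.big h).2
  have h5 := pow_le_η h1
  have h6 := η_le_un (P := P) (j := j)
  have h7 := η_pos (P := P)
  linarith

theorem Cb.le_succ (h : P.Ok Ω) (hx : Cb P Ω k x) (hx' : Cb P Ω k' x) : k' ≤ k + 1 := by
  obtain ⟨h1, -, h2, -⟩ := hx.facts h
  obtain ⟨-, -, -, h3⟩ := hx'.facts h
  by_contra hlt
  have h4 := h3 (by omega)
  have h5 : (2:ℝ)⁻¹ ^ k' ≤ (2:ℝ)⁻¹ ^ (k + 2) :=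
    pow_le_pow_of_le_one (by norm_num) (by norm_num) (by omega)
  have h6 : (0:ℝ) < 2⁻¹ ^ k := by positivity
  rw [pow_add] at h5
  linarith

theorem exists_zone (h : P.Ok Ω) (hx : x ∈ Ω) : ∃ k, P.k₀ ≤ k ∧ zone P Ω k x := by
  classical
  have h0 := (h.pos x hx).1
  have h1 : ∃ k, P.k₀ ≤ k ∧ (2:ℝ)⁻¹ ^ k ≤ P.ς x := by
    obtain ⟨k, hk⟩ := exists_pow_lt_of_lt_one h0 (show (2:ℝ)⁻¹ < 1 by norm_num)
    exact ⟨max k P.k₀, le_max_right _ _, (pow_le_pow_of_le_one (by norm_num) (by norm_num)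
      (le_max_left _ _)).trans hk.le⟩
  refine ⟨Nat.find h1, (Nat.find_spec h1).1, hx, (Nat.find_spec h1).2, fun hk => ?_⟩
  obtain ⟨l, hl⟩ : ∃ l, Nat.find h1 = l + 1 := ⟨Nat.find h1 - 1, by omega⟩
  have h2 := Nat.find_min h1 (m := l) (by omega)
  rw [hl, pow_succ]
  have h3 : P.ς x < 2⁻¹ ^ l := lt_of_not_ge fun h3 => h2 ⟨by omega, h3⟩
  linarith

theorem cover (h : P.Ok Ω) (hx : x ∈ Ω) : (∃ k, Cb P Ω k x) ∨ ∃ j, Co P j x := by
  by_cases hc : ∃ j, Co P j x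
  · exact Or.inr hc
  · obtain ⟨k, h1, h2⟩ := exists_zone h hx
    exact Or.inl ⟨k, _, ⟨h1, ⟨x, h2, floor_mem _⟩, x, floor_mem _, not_exists.1 hc⟩, floor_mem _⟩

theorem bdd_scale (h : P.Ok Ω) (hx : x ∈ Ω) :
    ∃ k₁, ∀ k, ∀ y ∈ ball x (P.ς x), Cb P Ω k y → k ≤ k₁ := by
  have h0 := (h.pos x hx).1
  obtain ⟨l, hl⟩ := exists_pow_lt_of_lt_one (show 0 < P.ς x / 3 by positivity)
    (show (2:ℝ)⁻¹ < 1 by norm_num)
  refine ⟨max l P.k₀, fun k y hy hk => ?_⟩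
  by_contra hlt
  have h1 := (hk.facts h).2.2.2 (by omega)
  have h2 : (2:ℝ)⁻¹ ^ k ≤ (2:ℝ)⁻¹ ^ l :=
    pow_le_pow_of_le_one (by norm_num) (by norm_num) (by omega)
  have h3 := (abs_le.1 (lip h y x)).1
  rw [mem_ball] at hy
  linarith

theorem exists_dy (P : Par) (k : ℕ) : ∃ θ : E3 ≃ᴬ[ℝ] E3, ∀ x, θ x = dy P k x :=
  exists_aff (LinearEquiv.smulOfNeZero ℝ E3 ((2:ℝ) ^ k) (by positivity)) P.w

theorem exists_nu (h : P.Ok Ω) (j : Fin P.N) : ∃ θ : E3 ≃ᴬ[ℝ] E3, ∀ x, θ x = P.nu j x := by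
  have hη := η_pos (P := P)
  have hm : (0:ℝ) < P.m j := by exact_mod_cast h.m_pos j
  have h3 : ∀ i : Fin 3, (if (i : ℕ) < (P.T j).r then P.η / P.m j else P.η)⁻¹ ≠ 0 := fun i => by
    split_ifs <;> positivity
  obtain ⟨θ, hθ⟩ := exists_aff ((P.T j).L.symm.toLinearEquiv.trans
    (LinearEquiv.piCongrRight fun i => LinearEquiv.smulOfNeZero ℝ ℝ _ (h3 i))) P.w
  refine ⟨θ, fun x => ?_⟩
  rw [hθ]
  funext i
  exact (div_eq_inv_mul _ _).symm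

end Me

end P073
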