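import Vale.Agent.P073Z.MESH.Ad

/-!
# Description of the cells
-/

open Set Metric Topology Filter MeasureTheory
open scoped ENNReal NNReal

namespace P073

namespace Me

theorem mem_kcell {ζ₀ ζ : E3} : ζ ∈ kcell ζ₀ ↔ ∀ (a : Fin 3 ⊕ Fin 3 × Fin 3) (k : ℤ),
    ((k : ℝ) ≤ kΛ a ζ₀ → (k : ℝ) ≤ kΛ a ζ) ∧ (kΛ a ζ₀ ≤ k → kΛ a ζ ≤ k) :=
  ⟨fun h a k => by
    rcases a with i | ⟨i, i'⟩
    · exact h.1 i k
    · exact h.2 i i' k,
  fun h => ⟨fun i k => h (Sum.inl i) k, fun i i' k => h (Sum.inr (i, i')) k⟩⟩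

theorem kcell_cube {ζ₀ ζ : E3} (h : ζ ∈ kcell ζ₀) : ζ ∈ ucube fun i => ⌊ζ₀ i⌋ :=
  mem_ucube.2 fun i => ⟨(h.1 i _).1 (Int.floor_le _), by
    have := (h.1 i (⌊ζ₀ i⌋ + 1)).2 (by push_cast; exact (Int.lt_floor_add_one _).le)
    push_cast at this
    exact this⟩

variable {Ω : Set E3} {P : Par}

/-- the arrangement complex -/
structure Cx (c : Ctx Ω P) (K : RCx E3) : Prop where
  sc : SC K c.Ψ
  car : K.carrier = Ω
  sub : ∀ i, ∀ x ∈ K.ocell i, ∀ m, okm Ω P m → x ∈ c.C m → K.cell i ⊆ c.C m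

open Ctx

theorem Ctx.Adj.small (ok : P.Ok Ω) {x y : E3} (h : Adj P Ω x y) : dist x y ≤ 2 * P.ς x := by
  rw [dist_comm]
  rcases h with ⟨k, h1, -, h3⟩ | ⟨j, h1, -, h3⟩
  · have := (h1.facts ok).2.2.1
    have : (0:ℝ) < 2⁻¹ ^ k := by positivity
    linarith
  · have := (((h1.nr ok).mono (s := 100) (by norm_num)).big ok).2
    have := un_pos (P := P) (j := j)
    linarith

theorem Ctx.Adj.dist_le (ok : P.Ok Ω) {x y : E3} {j : Fin P.N} (h : Adj P Ω x y)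
    (hx : Nr P j 100 x) : dist y x ≤ un P j := by
  rcases h with ⟨k, h1, -, h3⟩ | ⟨j', h1, -, h3⟩
  · exact (h3.trans (pow_le_η (h1.facts ok).1)).trans η_le_un
  · obtain rfl := Nr.eq ok hx ((h1.nr ok).mono (by norm_num))
    exact h3

namespace Cx

variable {c : Ctx Ω P} {K : RCx E3} (h : Cx c K) {i : K.ι} {x y : E3} {j : Fin P.N} {k : ℕ}
  {z : Fin 3 → ℤ}
include h

theorem mem (hx : x ∈ K.cell i) : x ∈ Ω := h.car ▸ K.cell_subset_carrier i hx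

theorem cb (hx : x ∈ K.ocell i) (hk : Cb P Ω k x) :
    ∃ z, cube P Ω k z ∧ ∀ y ∈ K.cell i, dy P k y ∈ ucube z := by
  obtain ⟨z, h1, h2⟩ := hk
  exact ⟨z, h1, fun y hy => cube_mem.1
    (h.sub i x hx _ (Or.inl ⟨k, rfl, rfl, h1⟩) (cube_mem.2 h2) hy)⟩

theorem cb' (hx : x ∈ K.ocell i) (hk : Cb P Ω k x) (hy : y ∈ K.cell i) : Cb P Ω k y :=
  let ⟨z, h1, h2⟩ := h.cb hx hk
  ⟨z, h1, h2 y hy⟩

theorem co (hx : x ∈ K.ocell i) (hz : core P j z) (hm : P.nu j x ∈ ucube z) (hy : y ∈ K.cell i) :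
    P.nu j y ∈ ucube z :=
  (core_mem.1 (h.sub i x hx (Sum.inr j, z, ∅) (Or.inr ⟨j, rfl, hz, Or.inl rfl⟩)
    (core_mem.2 (uface_empty z ▸ hm)) hy)).1

theorem adj (hx : x ∈ K.cell i) (hy : y ∈ K.cell i) : Adj P Ω x y := by
  obtain ⟨p, hp⟩ := K.ocell_nonempty i
  obtain ⟨m, hm⟩ := mem_iUnion.1 (c.iUnion_C.symm.subset (h.mem hp.1))
  exact Ctx.adj m.2 (h.sub i p hp m m.2 hm hx) (h.sub i p hp m m.2 hm hy)

theorem buf_sub (hx : x ∈ K.ocell i) (hb : x ∈ P.BufSet j) : K.cell i ⊆ P.BufSet j := by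
  have hn := buf_nr c.ok hb
  obtain ⟨z, h1, h2⟩ := hb
  exact fun y hy => ⟨z, h1, h.co hx ⟨x, hn.mono (by norm_num), h2⟩ h2 hy⟩

theorem fine_sub (hx : x ∈ K.ocell i) (hb : x ∈ P.Fine j) : K.cell i ⊆ P.Fine j := by
  obtain ⟨z, h1, h2⟩ := hb
  exact fun y hy => ⟨z, h1, core_mem.1 (h.sub i x hx (Sum.inr j, z, (P.T j).I)
    (Or.inr ⟨j, rfl, inner_core h1, Or.inr ⟨rfl, h1⟩⟩) (core_mem.2 h2) hy)⟩

theorem box (hx : x ∈ K.ocell i) (hn : Nr P j 10 x) (hy : y ∈ K.cell i) :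
    P.nu j y ∈ Icc (fun l => (⌊P.nu j x l⌋ : ℝ)) (fun l => (⌈P.nu j x l⌉ : ℝ)) := by
  refine ⟨(h.co hx ⟨x, hn, floor_mem _⟩ (floor_mem _) hy).1, fun l => ?_⟩
  have := (mem_ucube.1 (h.co hx ⟨x, hn, ceil_mem _⟩ (ceil_mem _) hy) l).2
  push_cast at this
  linarith

theorem sub_box (hz : z ∈ P.Buf j) {X : Set E3} (hX : IsBox X) (hs : X ⊆ ucube z) :
    K.Sub (P.nu j ⁻¹' X) := by
  intro x hx
  have hn := buf_nr c.ok ⟨z, hz, hs hx⟩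
  obtain ⟨i, hi⟩ := K.exists_ocell (h.car.symm ▸ ((hn.mono (by norm_num)).big c.ok).1)
  refine ⟨i, hi.1, fun y hy => ?_⟩
  obtain ⟨lo, hi', -, rfl⟩ := hX
  have := h.box hi (hn.mono (by norm_num)) hy
  exact ⟨fun l => le_trans (Int.cast_le.2 (Int.le_floor.2 (hx.1 l))) (this.1 l),
    fun l => le_trans (this.2 l) (Int.cast_le.2 (Int.ceil_le.2 (hx.2 l)))⟩

theorem coarse (hb : K.cell i ⊆ P.BufSet j) (hf : ¬ K.cell i ⊆ P.Fine j) :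
    ∃ X, IsBox X ∧ K.cell i = P.nu j ⁻¹' X := by
  obtain ⟨x, hx⟩ := K.ocell_nonempty i
  refine ⟨_, ⟨fun l => ⌊P.nu j x l⌋, fun l => ⌈P.nu j x l⌉, fun l => ?_, rfl⟩,
    Subset.antisymm (fun y hy => h.box hx ((buf_nr c.ok (hb hx.1)).mono (by norm_num)) hy)
      fun y hy => ?_⟩
  · have h1 := Int.floor_le_ceil (P.nu j x l)
    have h2 := Int.ceil_le_floor_add_one (P.nu j x l)
    show ⌈P.nu j x l⌉ = ⌊P.nu j x l⌋ ∨ ⌈P.nu j x l⌉ = ⌊P.nu j x l⌋ + 1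
    omega
  · rw [h.sc.cc i x hx]
    intro ℓ hl
    have hn := buf_nr c.ok (hb hx.1)
    have hA : Ad (fun l : Fin 3 => (LinearMap.proj l : E3 →ₗ[ℝ] ℝ)) (P.nu j) {ℓ} := by
      rintro _ rfl
      rcases cases hl with ⟨k', p, h1, h2, -⟩ | ⟨j', p, h1, h2, l, a, ε, hε, e⟩ | ⟨j', h1, -⟩
      · exact absurd (h2.nr c.ok hn (by norm_num) (by norm_num)) h1.not_nr
      · obtain rfl := co_eq c.ok (hn.mono (by norm_num)) h2 h1
        exact ⟨l, a, ε, hε, e⟩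
      · obtain rfl := fine_eq c.ok (hn.mono (by norm_num)) h1
        exact absurd (h.fine_sub hx h1) hf
    exact hA.mem (fun l k => ⟨fun h1 => le_trans (Int.cast_le.2 (Int.le_floor.2 h1)) (hy.1 l),
      fun h1 => le_trans (hy.2 l) (Int.cast_le.2 (Int.ceil_le.2 h1))⟩) ℓ rfl

theorem fine (hf : K.cell i ⊆ P.Fine j) (hx : x ∈ K.ocell i) :
    K.cell i = (fun y => (P.n : ℝ) • P.nu j y) ⁻¹' kcell ((P.n : ℝ) • P.nu j x) := by
  refine Subset.antisymm (fun y hy => mem_kcell.2 fun a k => ?_) fun y hy => ?_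
  · obtain ⟨z, h1, h2⟩ := hf hx.1
    have h3 := h.co hx (inner_core h1) h2.1 hy
    by_cases hk : |(k : ℝ) - P.n * kΛ a (fun i => (z i : ℝ))| ≤ P.n
    · obtain ⟨ℓ, hl, e⟩ := kuhn_mem (c := c) h1 h2 a hk
      have h4 := (h.sc.cc i x hx).subset hy ℓ hl
      rw [e, e] at h4
      exact ⟨fun h5 => sub_nonneg.1 (h4.1 (sub_nonneg.2 h5)),
        fun h5 => sub_nonpos.1 (h4.2 (sub_nonpos.2 h5))⟩
    · have h4 := abs_le.1 (kΛ_bound h2.1 a)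
      have h5 := abs_le.1 (kΛ_bound h3 a)
      have h0 : (0:ℝ) ≤ P.n := Nat.cast_nonneg _
      simp only [map_smul, smul_eq_mul]
      rw [abs_le, not_and_or, not_le, not_le] at hk
      rcases hk with hk | hk
      · exact ⟨fun _ => by nlinarith [h5.1], fun h6 => by nlinarith [h4.1]⟩
      · exact ⟨fun h6 => by nlinarith [h4.2], fun _ => by nlinarith [h5.2]⟩
  · rw [h.sc.cc i x hx]
    exact (ad_fine (fine_buf (hf hx.1))).mem (mem_kcell.1 hy)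

theorem chart {κ : Type} {Λ : κ → E3 →ₗ[ℝ] ℝ} {R : ℝ} {M : ℝ≥0}
    (hC : ∀ (C : Set E3) (θ n : E3 ≃ᴬ[ℝ] E3) (v : E3), IsCompact C → C.Nonempty →
      IntCut Λ (θ '' C) → (∀ x ∈ C, ∀ y ∈ C, dist (θ x) (θ y) ≤ R) → (∀ x, n x = θ x + v) →
      BiChart (Module.finrank ℝ (vectorSpan ℝ C)) (n '' C) (n '' intrinsicFrontier ℝ C) M)
    (θ n : E3 ≃ᴬ[ℝ] E3) (v : E3) (hx : x ∈ K.ocell i) (hA : Ad Λ θ (c.Ψ x))
    (hd : ∀ x ∈ K.cell i, ∀ y ∈ K.cell i, dist (θ x) (θ y) ≤ R) (hn : ∀ x, n x = θ x + v) :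
    BiChart (K.dim i) (n '' K.cell i) (n '' K.bd i) M := by
  rw [(h.sc.cvx i).2.1, (h.sc.cvx i).2.2]
  refine hC _ θ n v (K.isCompact_cell i) (K.cell_nonempty i) ?_ hd hn
  rw [h.sc.cc i x hx]
  exact hA.intCut x

theorem wire_near {φ e : K.ι} (h2 : K.dim φ = 2) (h1 : K.dim e = 1) (hs : K.cell e ⊆ K.cell φ)
    (hU : K.cell φ ⊆ P.U j) (hf : ¬ K.cell φ ⊆ P.Fine j) (hx : x ∈ K.cell e) :
    P.η⁻¹ • (x - P.w) ∈ Lines (nΛ (P.T j) (P.m j)) := by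
  obtain ⟨p, hp⟩ := K.ocell_nonempty φ
  obtain ⟨q, hq⟩ := K.ocell_nonempty e
  have h3 := finrank_lt (h.sc.finite hp.1) ((h.sc.cc φ p hp).subset (hs hq.1)) fun h3 => by
    have := K.ocell_unique hq ((h.sc.oc φ p hp).symm.subset h3)
    rw [this] at h1
    omega
  rw [h.sc.dim hp] at h3
  have h4 := ((ad_near (mem_U.1 (hU hp.1)) fun h4 => hf (h.fine_sub hp h4)).congr
    (c.hδ P.k₀)).lines (h.sc.finite hp.1) (x := q) (y := x) (by omega) fun ℓ hl h0 =>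
      zero_of_mem ((h.sc.cc e q hq).subset hx) (h.sc.mono φ p hp q (hs hq.1) hl) h0
  rwa [c.hδ, dy, ← η_inv] at h4

theorem wire_far (hL : LINES) (hp : y ∈ K.ocell i) (hf : Far P y) (hk : Cb P Ω k y)
    (h1 : K.dim i = 1) (hx : x ∈ K.cell i) : (2:ℝ) ^ (k + 2) • (x - P.w) ∈ gridLines := by
  have h4 := ((ad_far hf hk).congr (c.hδ (k + 2))).lines (h.sc.finite hp.1) (x := y) (y := x)
    (by rw [h.sc.dim hp, h1]) fun ℓ hl h0 => zero_of_mem ((h.sc.cc i y hp).subset hx) hl h0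
  rw [c.hδ] at h4
  exact hL.2 h4

theorem near (hx : x ∈ K.cell i) (hf : ¬ Far P x) : ∃ j, K.cell i ⊆ P.U j := by
  simp only [Far, not_forall, not_lt] at hf
  obtain ⟨j, p, h1, h2⟩ := hf
  have h3 : Nr P j 12 x := (h1.nr c.ok).step (dist_comm p x ▸ h2.trans η_le_un) (by norm_num)
  exact ⟨j, fun y hy => mem_U.2 ((h.adj hx hy).nr c.ok h3 (by norm_num) (by norm_num))⟩

end Cx

end Me

end P073
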