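import Vale.Agent.P073Z.MESH.Fam

/-!
# The functions relevant in the far, near and buffer regions
-/

open Set Metric Topology Filter MeasureTheory
open scoped ENNReal NNReal

namespace P073

namespace Me

theorem Ad.congr {κ : Type} {Λ : κ → E3 →ₗ[ℝ] ℝ} {θ θ' : E3 → E3} {Φ : Set (E3 →ᵃ[ℝ] ℝ)}
    (h : Ad Λ θ Φ) (e : ∀ y, θ' y = θ y) : Ad Λ θ' Φ := (funext e : θ' = θ) ▸ h

theorem exists_den (T : Ty) : ∃ q : ℕ, 0 < q ∧
    ∀ i k : Fin 3, ∃ a : ℤ, (q : ℝ) * T.L.symm (Pi.single i 1) k = a := by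
  choose ρ hρ using fun p : Fin 3 × Fin 3 => (T.rat p.1 p.2).2
  refine ⟨∏ p, (ρ p).den, Finset.prod_pos fun p _ => (ρ p).den_pos, fun i k => ?_⟩
  obtain ⟨d, hd⟩ := Finset.dvd_prod_of_mem (fun p => (ρ p).den) (Finset.mem_univ (i, k))
  refine ⟨d * (ρ (i, k)).num, ?_⟩
  rw [hd, hρ (i, k)]
  have h := congrArg (fun t : ℚ => (t : ℝ)) (Rat.den_mul_eq_num (ρ (i, k)))
  push_cast at h ⊢
  rw [← h]
  ring

/-- a common denominator -/
noncomputable def den (T : Ty) : ℕ := (exists_den T).choose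

theorem den_pos (T : Ty) : 0 < den T := (exists_den T).choose_spec.1

/-- the forms of the near region -/
noncomputable def nΛ (T : Ty) (m : ℕ) : Fin 3 ⊕ Fin 3 → E3 →ₗ[ℝ] ℝ
  | Sum.inl i => LinearMap.proj i
  | Sum.inr i => ((den T : ℝ) * if (i : ℕ) < T.r then (m : ℝ) else 1) •
      (LinearMap.proj i).comp (T.L.symm.toLinearEquiv : E3 →ₗ[ℝ] E3)

/-- the forms of the far region -/
noncomputable def fΛ (i : Fin 3) : E3 →ₗ[ℝ] ℝ := (4:ℝ) • LinearMap.proj i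

theorem single_int (i l : Fin 3) : ∃ k : ℤ, (Pi.single i 1 : E3) l = k := by
  by_cases h : l = i
  · exact ⟨1, by simp [h]⟩
  · exact ⟨0, by simp [h]⟩

theorem nΛ_int (T : Ty) (m : ℕ) (a : Fin 3 ⊕ Fin 3) (i : Fin 3) :
    ∃ k : ℤ, nΛ T m a (Pi.single i 1) = k := by
  rcases a with l | l
  · exact single_int i l
  · obtain ⟨a, ha⟩ := (exists_den T).choose_spec.2 i l
    refine ⟨(if (l : ℕ) < T.r then (m : ℤ) else 1) * a, ?_⟩
    show ((den T : ℝ) * if (l : ℕ) < T.r then (m : ℝ) else 1) * T.L.symm (Pi.single i 1) l = _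
    rw [mul_right_comm, den, ha]
    split_ifs <;> push_cast <;> ring

theorem fΛ_int (a i : Fin 3) : ∃ k : ℤ, fΛ a (Pi.single i 1) = k := by
  obtain ⟨k, hk⟩ := single_int i a
  refine ⟨4 * k, ?_⟩
  show 4 * (Pi.single i 1 : E3) a = _
  rw [hk]
  push_cast
  rfl

theorem kΛ_int (a : Fin 3 ⊕ Fin 3 × Fin 3) (i : Fin 3) : ∃ k : ℤ, kΛ a (Pi.single i 1) = k := by
  rcases a with l | ⟨l, l'⟩
  · exact single_int i l
  · obtain ⟨k, hk⟩ := single_int i l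
    obtain ⟨k', hk'⟩ := single_int i l'
    refine ⟨k - k', ?_⟩
    show (Pi.single i 1 : E3) l - (Pi.single i 1 : E3) l' = _
    rw [hk, hk']
    push_cast
    rfl

variable {Ω : Set E3} {P : Par} {x p : E3} {j : Fin P.N} {k : ℕ} {r : ℝ}

theorem η_inv : P.η⁻¹ = 2 ^ P.k₀ := by rw [Par.η, inv_pow, inv_inv]

theorem nΛ_nu (h : P.Ok Ω) (j : Fin P.N) (i : Fin 3) (y : E3) :
    nΛ (P.T j) (P.m j) (Sum.inr i) (dy P P.k₀ y) = den (P.T j) * P.nu j y i := by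
  have hη := (η_pos (P := P)).ne'
  have hm : (P.m j : ℝ) ≠ 0 := by exact_mod_cast (Nat.one_le_iff_ne_zero.1 (h.m_pos j))
  show ((den (P.T j) : ℝ) * if (i : ℕ) < (P.T j).r then (P.m j : ℝ) else 1) *
    (P.T j).L.symm (dy P P.k₀ y) i = _
  rw [dy, map_smul, ← η_inv, Par.nu, Pi.smul_apply, smul_eq_mul]
  split_ifs <;> field_simp

theorem exists_nuL (P : Par) (j : Fin P.N) : ∃ N : E3 →ₗ[ℝ] E3, (∀ y, P.nu j y = N (y - P.w)) ∧
    ∀ i l, ∃ q : ℚ, N (Pi.single i 1) l = q := by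
  refine ⟨LinearMap.pi fun i => (if (i : ℕ) < (P.T j).r then P.η / P.m j else P.η)⁻¹ •
    (LinearMap.proj i).comp ((P.T j).L.symm.toLinearEquiv : E3 →ₗ[ℝ] E3),
    fun y => funext fun i => div_eq_inv_mul _ _, fun i l => ?_⟩
  obtain ⟨q, hq⟩ := ((P.T j).rat i l).2
  refine ⟨(if (l : ℕ) < (P.T j).r then (2:ℚ)⁻¹ ^ P.k₀ / (P.m j : ℚ) else (2:ℚ)⁻¹ ^ P.k₀)⁻¹ * q, ?_⟩
  show (if (l : ℕ) < (P.T j).r then P.η / P.m j else P.η)⁻¹ * (P.T j).L.symm (Pi.single i 1) l = _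
  rw [hq, Par.η]
  split_ifs <;> push_cast <;> rfl

namespace Ctx

theorem Adj.symm (h : Adj P Ω x p) : Adj P Ω p x := by
  rcases h with ⟨k, h1, h2, h3⟩ | ⟨j, h1, h2, h3⟩
  · exact Or.inl ⟨k, h2, h1, dist_comm p x ▸ h3⟩
  · exact Or.inr ⟨j, h2, h1, dist_comm p x ▸ h3⟩

theorem Adj.nr (ok : P.Ok Ω) (h : Adj P Ω x p) (hx : Nr P j r x) (hr : r ≤ 100) {s : ℝ}
    (hs : r + 1 ≤ s) : Nr P j s p := by
  rcases h with ⟨k, h1, -, h3⟩ | ⟨j', h1, -, h3⟩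
  · exact hx.step ((h3.trans (pow_le_η (h1.facts ok).1)).trans η_le_un) hs
  · obtain rfl := Nr.eq ok (hx.mono hr) ((h1.nr ok).mono (by norm_num))
    exact hx.step h3 hs

variable {c : Ctx Ω P}

/-- far from the cores -/
def Far (P : Par) (x : E3) : Prop := ∀ j p, Co P j p → P.η < dist p x

theorem Far.not_co (h : Far P x) : ¬ Co P j x := fun h' => by
  have := h j x h'
  rw [dist_self] at this
  exact lt_asymm this η_pos

theorem ad_far (hx : Far P x) (hk : Cb P Ω k x) :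
    Ad (fun i : Fin 3 => (LinearMap.proj i : E3 →ₗ[ℝ] ℝ)) (dy P (k + 2)) (c.Ψ x) := by
  intro ℓ hl
  rcases cases hl with ⟨k', p, h1, ⟨l, h2, h3, -⟩ | ⟨j, h2, -⟩, i, a, ε, hε, e⟩ |
    ⟨j, p, h1, ⟨l, h2, -, h3⟩ | ⟨j, h2, -⟩, -⟩ | ⟨j, h1, -⟩
  · have h4 := h3.le_succ c.ok h1
    have h5 := hk.le_succ c.ok h2
    obtain ⟨d, hd⟩ : ∃ d, k + 2 = k' + d := ⟨k + 2 - k', by omega⟩
    refine ⟨i, 2 ^ d * a, ε / 2 ^ d, by positivity, fun y => ?_⟩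
    rw [e, hd]
    simp only [dy, LinearMap.proj_apply, Pi.smul_apply, smul_eq_mul, pow_add]
    push_cast
    field_simp
  · exact absurd h2 hx.not_co
  · exact absurd (h3.trans (pow_le_η (h2.facts c.ok).1)) (not_le.2 (hx j p h1))
  · exact absurd h2 hx.not_co
  · exact absurd ((buf_nr c.ok (fine_buf h1)).mono (by norm_num)).co hx.not_co

theorem ad_far' (hx : Far P x) (hk : Cb P Ω k x) : Ad fΛ (dy P k) (c.Ψ x) := by
  intro ℓ hl
  obtain ⟨i, a, ε, hε, e⟩ := ad_far hx hk ℓ hl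
  refine ⟨i, a, ε, hε, fun y => ?_⟩
  rw [e]
  simp only [dy, fΛ, LinearMap.smul_apply, LinearMap.proj_apply, Pi.smul_apply, smul_eq_mul]
  ring

theorem fine_eq (ok : P.Ok Ω) {j' : Fin P.N} (hx : Nr P j 20 x) (h : x ∈ P.Fine j') : j = j' :=
  Nr.eq ok (hx.mono (by norm_num)) ((buf_nr ok (fine_buf h)).mono (by norm_num))

theorem co_eq (ok : P.Ok Ω) {j' : Fin P.N} (hx : Nr P j 20 x) (h : Adj P Ω x p)
    (h' : Co P j' p) : j = j' :=
  Nr.eq ok (h.nr ok hx (by norm_num) (by norm_num)) ((h'.nr ok).mono (by norm_num))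

theorem ad_near (hx : Nr P j 20 x) (hf : x ∉ P.Fine j) :
    Ad (nΛ (P.T j) (P.m j)) (dy P P.k₀) (c.Ψ x) := by
  intro ℓ hl
  rcases cases hl with ⟨k', p, h1, h2, i, a, ε, hε, e⟩ | ⟨j', p, h1, h2, i, a, ε, hε, e⟩ |
    ⟨j', h1, -⟩
  · obtain rfl := h1.eq_of_nr c.ok (h2.nr c.ok hx (by norm_num) (by norm_num))
    exact ⟨Sum.inl i, a, ε, hε, e⟩
  · obtain rfl := co_eq c.ok hx h2 h1
    have hq : (0:ℝ) < den (P.T j) := by exact_mod_cast den_pos _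
    refine ⟨Sum.inr i, den (P.T j) * a, ε / den (P.T j), by positivity, fun y => ?_⟩
    rw [e, nΛ_nu c.ok]
    push_cast
    field_simp
  · obtain rfl := fine_eq c.ok hx h1
    exact absurd h1 hf

theorem ad_coarse (hx : x ∈ P.BufSet j) (hf : x ∉ P.Fine j) : Ad kΛ (P.nu j) (c.Ψ x) := by
  intro ℓ hl
  have hn := buf_nr c.ok hx
  rcases cases hl with ⟨k', p, h1, h2, -⟩ | ⟨j', p, h1, h2, i, a, ε, hε, e⟩ | ⟨j', h1, -⟩
  · exact absurd (h2.nr c.ok hn (by norm_num) (by norm_num)) h1.not_nr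
  · obtain rfl := co_eq c.ok (hn.mono (by norm_num)) h2 h1
    exact ⟨Sum.inl i, a, ε, hε, e⟩
  · obtain rfl := fine_eq c.ok (hn.mono (by norm_num)) h1
    exact absurd h1 hf

theorem ad_fine (hx : x ∈ P.BufSet j) : Ad kΛ (fun y => (P.n : ℝ) • P.nu j y) (c.Ψ x) := by
  intro ℓ hl
  have hn := buf_nr c.ok hx
  have h0 : (0:ℝ) < P.n := by exact_mod_cast c.ok.n_pos
  rcases cases hl with ⟨k', p, h1, h2, -⟩ | ⟨j', p, h1, h2, i, a, ε, hε, e⟩ | ⟨j', h1, a, k, e⟩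
  · exact absurd (h2.nr c.ok hn (by norm_num) (by norm_num)) h1.not_nr
  · obtain rfl := co_eq c.ok (hn.mono (by norm_num)) h2 h1
    refine ⟨Sum.inl i, P.n * a, ε / P.n, by positivity, fun y => ?_⟩
    rw [e]
    simp only [kΛ, LinearMap.proj_apply, Pi.smul_apply, smul_eq_mul]
    push_cast
    field_simp
  · obtain rfl := fine_eq c.ok (hn.mono (by norm_num)) h1
    exact ⟨a, k, 1, one_ne_zero, fun y => by rw [e, one_mul]⟩

theorem rat {ℓ : E3 →ᵃ[ℝ] ℝ} (hl : ℓ ∈ c.Ψ x) : ∃ (c : ℝ) (g : E3 →ₗ[ℝ] ℝ) (k : ℤ), c ≠ 0 ∧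
    (∀ i, ∃ q : ℚ, g (Pi.single i 1) = q) ∧ ∀ y, ℓ y = c * (g (y - P.w) - k) := by
  rcases cases hl with ⟨k, p, -, -, i, a, ε, hε, e⟩ | ⟨j, p, -, -, i, a, ε, hε, e⟩ |
    ⟨j, -, a, k, e⟩
  · refine ⟨ε, (2:ℝ) ^ k • LinearMap.proj i, a, hε, fun l => ?_, e⟩
    obtain ⟨b, hb⟩ := single_int l i
    refine ⟨2 ^ k * b, ?_⟩
    show (2:ℝ) ^ k * (Pi.single l 1 : E3) i = _
    rw [hb]
    push_cast
    rfl
  · obtain ⟨N, h1, h2⟩ := exists_nuL P j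
    exact ⟨ε, (LinearMap.proj i).comp N, a, hε, fun l => h2 l i, fun y => by rw [e, h1]; rfl⟩
  · obtain ⟨N, h1, h2⟩ := exists_nuL P j
    refine ⟨1, (kΛ a).comp ((P.n : ℝ) • N), k, one_ne_zero, fun l => ?_,
      fun y => by rw [e, h1, one_mul]; rfl⟩
    rcases a with i | ⟨i, i'⟩
    · obtain ⟨q, hq⟩ := h2 l i
      refine ⟨P.n * q, ?_⟩
      show (P.n : ℝ) * N (Pi.single l 1) i = _
      rw [hq]
      push_cast
      rfl
    · obtain ⟨q, hq⟩ := h2 l i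
      obtain ⟨q', hq'⟩ := h2 l i'
      refine ⟨P.n * q - P.n * q', ?_⟩
      show (P.n : ℝ) * N (Pi.single l 1) i - (P.n : ℝ) * N (Pi.single l 1) i' = _
      rw [hq, hq']
      push_cast
      rfl

theorem mult {K : RCx E3} (h : SC K c.Ψ) (x : E3) :
    {i | x ∈ K.cell i}.Finite ∧ {i | x ∈ K.cell i}.ncard ≤ 3 ^ 15 := by
  have e1 : ∀ (k : ℕ) (i : Fin 3) (a ε : ℝ) (y : E3), ε * (dy P k y i - a) - ε * (dy P k x i - a) =
      ε * 2 ^ k * (y i - x i) := fun k i a ε y => by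
    simp only [dy, Pi.smul_apply, Pi.sub_apply, smul_eq_mul]
    ring
  by_cases hx : ∃ j, Nr P j 20 x
  · obtain ⟨j, hx⟩ := hx
    refine h.mult (κ := Fin 3 ⊕ Fin 3 ⊕ Fin 3 × Fin 3)
      (Sum.elim (fun i y => y i) fun a y => kΛ a (P.nu j y)) fun ℓ hl => ?_
    rcases cases hl with ⟨k, p, -, -, i, a, ε, -, e⟩ | ⟨j', p, h1, h2, i, a, ε, -, e⟩ |
      ⟨j', h1, a, k, e⟩
    · exact ⟨Sum.inl i, ε * 2 ^ k, fun y => by rw [e, e, e1]; rfl⟩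
    · obtain rfl := co_eq c.ok hx h2 h1
      refine ⟨Sum.inr (Sum.inl i), ε, fun y => ?_⟩
      rw [e, e]
      simp only [Sum.elim_inr, kΛ, LinearMap.proj_apply]
      ring
    · obtain rfl := fine_eq c.ok hx h1
      refine ⟨Sum.inr a, P.n, fun y => ?_⟩
      rw [e, e]
      simp only [Sum.elim_inr, map_smul, smul_eq_mul]
      ring
  · refine h.mult (κ := Fin 3 ⊕ Fin 3 ⊕ Fin 3 × Fin 3)
      (Sum.elim (fun i y => y i) fun _ _ => 0) fun ℓ hl => ?_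
    rcases cases hl with ⟨k, p, -, -, i, a, ε, -, e⟩ | ⟨j, p, h1, h2, -⟩ | ⟨j, h1, -⟩
    · exact ⟨Sum.inl i, ε * 2 ^ k, fun y => by rw [e, e, e1]; rfl⟩
    · exact absurd ⟨j, h2.symm.nr c.ok (h1.nr c.ok) (by norm_num) (by norm_num)⟩ hx
    · exact absurd ⟨j, (buf_nr c.ok (fine_buf h1)).mono (by norm_num)⟩ hx

end Ctx

end Me

end P073
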