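import Vale.Agent.P073Z.Sk3

/-!
# Definitions for the source mesh
-/

open Set Metric Topology Filter MeasureTheory
open scoped ENNReal NNReal

namespace P073

namespace Me

/-- the lines on which a family of forms with at most one-dimensional common kernel takes
integer values -/
def Lines {κ : Type} (Λ : κ → E3 →ₗ[ℝ] ℝ) : Set E3 :=
  {ξ | ∃ (A : Set κ) (v : E3), (∀ u, (∀ a ∈ A, Λ a u = 0) → ∃ t : ℝ, u = t • v) ∧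
    ∀ a ∈ A, ∃ k : ℤ, Λ a ξ = k}

/-- uniform density of the lines -/
def LINES : Prop :=
  (∀ {κ : Type} [Finite κ] (Λ : κ → E3 →ₗ[ℝ] ℝ), MeasurableSet (Lines Λ) ∧
    ∃ D : ℝ≥0, ∀ y, μH[1] (Lines Λ ∩ closedBall y 1) ≤ D) ∧
  Lines (fun i : Fin 3 => (LinearMap.proj i : E3 →ₗ[ℝ] ℝ)) ⊆ gridLines

/-- `C` is cut out by inequalities with integer constants -/
def IntCut {κ : Type} (Λ : κ → E3 →ₗ[ℝ] ℝ) (C : Set E3) : Prop :=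
  ∀ y, (∀ a, ∀ k : ℤ, ((∀ c ∈ C, (k : ℝ) ≤ Λ a c) → (k : ℝ) ≤ Λ a y) ∧
    ((∀ c ∈ C, Λ a c ≤ k) → Λ a y ≤ k)) → y ∈ C

/-- uniform charts -/
def CHART : Prop := ∀ {κ : Type} [Finite κ] (Λ : κ → E3 →ₗ[ℝ] ℝ) (R : ℝ),
  (∀ a i, ∃ k : ℤ, Λ a (Pi.single i 1) = k) → ∃ M : ℝ≥0, ∀ M', M ≤ M' →
  ∀ (C : Set E3) (θ n : E3 ≃ᴬ[ℝ] E3) (v : E3), IsCompact C → C.Nonempty → IntCut Λ (θ '' C) →
  (∀ x ∈ C, ∀ y ∈ C, dist (θ x) (θ y) ≤ R) → (∀ x, n x = θ x + v) →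
  BiChart (Module.finrank ℝ (vectorSpan ℝ C)) (n '' C) (n '' intrinsicFrontier ℝ C) M'

end Me

end P073
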