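import Vale.Agent.P073Z.MESH.Geo
import Vale.Agent.P073Z.ARR

/-!
# The family of boxes and its arrangement complex
-/

open Set Metric Topology Filter MeasureTheory
open scoped ENNReal NNReal

namespace P073

namespace Me

/-- the forms of the Kuhn triangulation -/
def kΛ : Fin 3 ⊕ Fin 3 × Fin 3 → E3 →ₗ[ℝ] ℝ
  | Sum.inl i => LinearMap.proj i
  | Sum.inr p => LinearMap.proj (R := ℝ) (φ := fun _ : Fin 3 => ℝ) p.1 - LinearMap.proj p.2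

theorem kΛ_bound {z : Fin 3 → ℤ} {ξ : E3} (h : ξ ∈ ucube z) (a : Fin 3 ⊕ Fin 3 × Fin 3) :
    |kΛ a ξ - kΛ a (fun i => (z i : ℝ))| ≤ 1 := by
  rw [abs_le]
  rcases a with i | ⟨i, i'⟩
  · have := mem_ucube.1 h i
    simp only [kΛ, LinearMap.proj_apply]
    constructor <;> linarith
  · have := mem_ucube.1 h i
    have := mem_ucube.1 h i'
    simp only [kΛ, LinearMap.sub_apply, LinearMap.proj_apply]
    constructor <;> linarith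

/-- an affine function in coordinates -/
noncomputable def fm (θ : E3 ≃ᴬ[ℝ] E3) (g : E3 →ₗ[ℝ] ℝ) (a : ℝ) : E3 →ᵃ[ℝ] ℝ :=
  g.toAffineMap.comp θ.toAffineEquiv.toAffineMap - AffineMap.const ℝ E3 a

theorem fm_apply (θ : E3 ≃ᴬ[ℝ] E3) (g : E3 →ₗ[ℝ] ℝ) (a : ℝ) (y : E3) :
    fm θ g a y = g (θ y) - a := rfl

/-- coordinates -/
structure Ctx (Ω : Set E3) (P : Par) where
  ok : P.Ok Ω
  /-- the charts -/
  θ : ℕ ⊕ Fin P.N → E3 ≃ᴬ[ℝ] E3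
  hδ : ∀ k x, θ (Sum.inl k) x = dy P k x
  hν : ∀ j x, θ (Sum.inr j) x = P.nu j x

theorem exists_ctx {Ω : Set E3} {P : Par} (h : P.Ok Ω) : Nonempty (Ctx Ω P) := by
  choose δ hδ using exists_dy P
  choose ν hν using exists_nu h
  exact ⟨⟨h, Sum.elim δ ν, hδ, hν⟩⟩

/-- raw indices -/
abbrev Mem (P : Par) := (ℕ ⊕ Fin P.N) × (Fin 3 → ℤ) × Finset (Fin 3)

/-- admissible indices -/
def okm (Ω : Set E3) (P : Par) (m : Mem P) : Prop :=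
  (∃ k, m.1 = Sum.inl k ∧ m.2.2 = ∅ ∧ cube P Ω k m.2.1) ∨
    ∃ j, m.1 = Sum.inr j ∧ core P j m.2.1 ∧
      (m.2.2 = ∅ ∨ (m.2.2 = (P.T j).I ∧ m.2.1 ∈ P.Inner j))

namespace Ctx

variable {Ω : Set E3} {P : Par} (c : Ctx Ω P)

/-- the boxes -/
def C (m : Mem P) : Set E3 := c.θ m.1 ⁻¹' uface m.2.1 m.2.2

/-- their facet functions -/
def G (m : Mem P) : Set (E3 →ᵃ[ℝ] ℝ) :=
  range (fun i => fm (c.θ m.1) (LinearMap.proj i)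
    ((m.2.1 i + if i ∈ m.2.2 then 0 else 1 : ℤ) : ℝ)) ∪
  range (fun i => -fm (c.θ m.1) (LinearMap.proj i) (m.2.1 i))

/-- the Kuhn functions -/
def Kn (m : Mem P) : Set (E3 →ᵃ[ℝ] ℝ) :=
  {ℓ | ∃ j, m.1 = Sum.inr j ∧ m.2.1 ∈ P.Inner j ∧ m.2.2 = (P.T j).I ∧ ∃ a, ∃ k : ℤ,
    |(k : ℝ) - P.n * kΛ a (fun i => (m.2.1 i : ℝ))| ≤ P.n ∧ ℓ = fm (c.θ m.1) ((P.n : ℝ) • kΛ a) k}

/-- all functions of a box -/
def H (m : Mem P) : Set (E3 →ᵃ[ℝ] ℝ) :=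
  {ℓ | ∃ m', okm Ω P m' ∧ (c.C m ∩ c.C m').Nonempty ∧ ℓ ∈ c.G m'} ∪ c.Kn m

/-- all functions relevant at a point -/
def Ψ (x : E3) : Set (E3 →ᵃ[ℝ] ℝ) := {ℓ | ∃ m, okm Ω P m ∧ x ∈ c.C m ∧ ℓ ∈ c.H m}

theorem finite_G (m : Mem P) : (c.G m).Finite := (finite_range _).union (finite_range _)

theorem finite_Kn (m : Mem P) : (c.Kn m).Finite := by
  refine (finite_iUnion fun a : Fin 3 ⊕ Fin 3 × Fin 3 => (Set.finite_Icc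
    ⌊P.n * kΛ a (fun i => (m.2.1 i : ℝ)) - P.n⌋ ⌈P.n * kΛ a (fun i => (m.2.1 i : ℝ)) + P.n⌉).image
      fun k : ℤ => fm (c.θ m.1) ((P.n : ℝ) • kΛ a) k).subset ?_
  rintro _ ⟨j, -, -, -, a, k, h, rfl⟩
  rw [abs_le] at h
  exact mem_iUnion.2 ⟨a, k, ⟨Int.floor_le_iff.2 (by linarith [h.1]),
    Int.le_ceil_iff.2 (by linarith [h.2])⟩, rfl⟩

theorem C_eq (m : Mem P) : c.C m = {x | ∀ ℓ ∈ c.G m, ℓ x ≤ 0} := by
  ext x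
  rw [C, mem_preimage, mem_uface]
  constructor
  · rintro h _ (⟨i, rfl⟩ | ⟨i, rfl⟩)
    · exact sub_nonpos.2 (h i).2
    · exact neg_nonpos.2 (sub_nonneg.2 (h i).1)
  · exact fun h i => ⟨sub_nonneg.1 (neg_nonpos.1 (h _ (Or.inr ⟨i, rfl⟩))),
      sub_nonpos.1 (h _ (Or.inl ⟨i, rfl⟩))⟩

theorem isCompact_C (m : Mem P) : IsCompact (c.C m) := by
  have h : uface m.2.1 m.2.2 = Icc (fun i => (m.2.1 i : ℝ))
      (fun i => ((m.2.1 i + if i ∈ m.2.2 then 0 else 1 : ℤ) : ℝ)) := by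
    ext ξ
    rw [mem_uface]
    exact ⟨fun h => ⟨fun i => (h i).1, fun i => (h i).2⟩, fun h i => ⟨h.1 i, h.2 i⟩⟩
  rw [C, h]
  exact (c.θ m.1).toHomeomorph.isCompact_preimage.2 isCompact_Icc

variable {c} {m : Mem P} {x y : E3}

/-- two points in a common box -/
def Adj (P : Par) (Ω : Set E3) (x p : E3) : Prop :=
  (∃ k, Cb P Ω k x ∧ Cb P Ω k p ∧ dist p x ≤ (2:ℝ)⁻¹ ^ k) ∨
    ∃ j, Co P j x ∧ Co P j p ∧ dist p x ≤ un P j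

theorem mem_cube {k : ℕ} (h : m.1 = Sum.inl k) (hx : x ∈ c.C m) : dy P k x ∈ ucube m.2.1 := by
  have := hx.1
  rwa [h, c.hδ] at this

theorem mem_core {j : Fin P.N} (h : m.1 = Sum.inr j) (hx : x ∈ c.C m) :
    P.nu j x ∈ uface m.2.1 m.2.2 := by
  have : c.θ m.1 x ∈ uface m.2.1 m.2.2 := hx
  rwa [h, c.hν] at this

theorem adj (hm : okm Ω P m) (hx : x ∈ c.C m) (hy : y ∈ c.C m) : Adj P Ω x y := by
  rcases hm with ⟨k, h1, -, h2⟩ | ⟨j, h1, h2, -⟩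
  · exact Or.inl ⟨k, ⟨_, h2, mem_cube h1 hx⟩, ⟨_, h2, mem_cube h1 hy⟩,
      dist_cube (mem_cube h1 hy) (mem_cube h1 hx)⟩
  · exact Or.inr ⟨j, ⟨_, h2, (mem_core h1 hx).1⟩, ⟨_, h2, (mem_core h1 hy).1⟩,
      dist_core c.ok (mem_core h1 hy).1 (mem_core h1 hx).1⟩

theorem cube_mem {k : ℕ} {z : Fin 3 → ℤ} : x ∈ c.C (Sum.inl k, z, ∅) ↔ dy P k x ∈ ucube z := by
  rw [C, mem_preimage, c.hδ, uface_empty]

theorem core_mem {j : Fin P.N} {z : Fin 3 → ℤ} {J : Finset (Fin 3)} :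
    x ∈ c.C (Sum.inr j, z, J) ↔ P.nu j x ∈ uface z J := by
  rw [C, mem_preimage, c.hν]

theorem mem_Ω (hm : okm Ω P m) (hx : x ∈ c.C m) : x ∈ Ω := by
  rcases adj hm hx hx with ⟨k, h, -⟩ | ⟨j, h, -⟩
  · exact (h.facts c.ok).2.1
  · exact (((h.nr c.ok).mono (by norm_num)).big c.ok).1

variable (c)

theorem iUnion_C : ⋃ m : {m // okm Ω P m}, c.C m = Ω := by
  refine Subset.antisymm (iUnion_subset fun m x hx => mem_Ω m.2 hx) fun x hx => ?_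
  rcases cover c.ok hx with ⟨k, z, h1, h2⟩ | ⟨j, z, h1, h2⟩
  · exact mem_iUnion.2 ⟨⟨(Sum.inl k, z, ∅), Or.inl ⟨k, rfl, rfl, h1⟩⟩, cube_mem.2 h2⟩
  · exact mem_iUnion.2 ⟨⟨(Sum.inr j, z, ∅), Or.inr ⟨j, rfl, h1, Or.inl rfl⟩⟩,
      core_mem.2 (uface_empty z ▸ h2)⟩

theorem lfIn : LFIn (fun m : {m // okm Ω P m} => c.C m) Ω := by
  intro x hx
  obtain ⟨k₁, hk⟩ := bdd_scale c.ok hx
  refine ⟨ball x (P.ς x), ball_mem_nhds x (c.ok.pos x hx).1, ?_⟩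
  have h1 : (Sum.inl '' Iic k₁ ∪ range Sum.inr : Set (ℕ ⊕ Fin P.N)).Finite :=
    ((finite_Iic k₁).image _).union (finite_range _)
  have h2 := h1.biUnion fun a _ => (finite_singleton a).prod ((finite_cubes
    ((isCompact_closedBall x (P.ς x)).image (c.θ a).continuous).isBounded).prod
      (finite_univ (α := Finset (Fin 3))))
  refine (h2.preimage Subtype.val_injective.injOn).subset ?_
  rintro ⟨m, hm⟩ ⟨y, (h3 : y ∈ c.C m), h4⟩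
  have h7 := h3.1
  refine mem_iUnion₂.2 ⟨m.1, ?_, rfl, ⟨_, h7, y, ball_subset_closedBall h4, rfl⟩, trivial⟩
  rcases hm with ⟨k, h5, -, h6⟩ | ⟨j, h5, -⟩
  · exact Or.inl ⟨k, hk k y h4 ⟨_, h6, mem_cube h5 h3⟩, h5.symm⟩
  · exact Or.inr ⟨j, h5.symm⟩

theorem finite_H (hm : okm Ω P m) : (c.H m).Finite := by
  refine Finite.union (((c.lfIn.finite_meet (c.isCompact_C m) fun x hx => mem_Ω hm hx).biUnion
    fun m' _ => c.finite_G m').subset ?_) (c.finite_Kn m)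
  rintro ℓ ⟨m', h1, h2, h3⟩
  exact mem_iUnion₂.2 ⟨⟨m', h1⟩, h2.imp fun _ h => ⟨h.2, h.1⟩, h3⟩

/-- the arrangement complex -/
theorem exists_cx (arr : ARR) : ∃ K : RCx E3, SC K c.Ψ ∧ K.carrier = Ω ∧
    ∀ i, ∀ x ∈ K.ocell i, ∀ m, okm Ω P m → x ∈ c.C m → K.cell i ⊆ c.C m := by
  have hlf : LFIn (fun m : {m // okm Ω P m} => c.C m) (⋃ m : {m // okm Ω P m}, c.C m) := by
    rw [c.iUnion_C]
    exact c.lfIn
  obtain ⟨K, h1, h2, h3⟩ := arr (fun m : {m // okm Ω P m} => c.C m)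
    (fun m => (c.finite_G m).toFinset) (fun m => (c.finite_H m.2).toFinset)
    (fun m => by simp only [Finite.mem_toFinset]; exact c.C_eq m) (fun m => c.isCompact_C m) hlf
    (fun m m' h ℓ hl => (Finite.mem_toFinset _).2
      (Or.inl ⟨m', m'.2, h, (Finite.mem_toFinset _).1 hl⟩))
  rw [c.iUnion_C] at h2
  simp only [Finite.mem_toFinset] at h3
  have hcc : ∀ i, ∀ x ∈ K.ocell i, K.cell i = sgnC (c.Ψ x) x := fun i x hx => by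
    rw [(h3 i x hx).2]
    exact Set.ext fun y => ⟨fun h ℓ ⟨m, a, b, d⟩ => h ⟨m, a⟩ b ℓ d,
      fun h m b ℓ d => h ℓ ⟨m, m.2, b, d⟩⟩
  have hsub : ∀ i, ∀ x ∈ K.ocell i, ∀ m, okm Ω P m → x ∈ c.C m → K.cell i ⊆ c.C m := by
    intro i x hx m hm hxm y hy
    rw [hcc i x hx] at hy
    rw [c.C_eq]
    exact fun ℓ hl => (hy ℓ ⟨m, hm, hxm, Or.inl ⟨m, hm, ⟨x, hxm, hxm⟩, hl⟩⟩).2
      ((c.C_eq m).subset hxm ℓ hl)
  refine ⟨K, ⟨h1, fun x hx => ?_, fun i x hx => ?_, hcc,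
    fun i x hx y hy ℓ ⟨m, a, b, d⟩ => ⟨m, a, hsub i x hx m a b hy, d⟩⟩, h2, hsub⟩
  · refine ((c.lfIn.finite_mem (h2 ▸ hx)).biUnion fun m _ => c.finite_H m.2).subset ?_
    rintro ℓ ⟨m, a, b, d⟩
    exact mem_iUnion₂.2 ⟨⟨m, a⟩, b, d⟩
  · rw [(h3 i x hx).1]
    exact Set.ext fun y => ⟨fun h ℓ ⟨m, a, b, d⟩ => h ⟨m, a⟩ b ℓ d,
      fun h m b ℓ d => h ℓ ⟨m, m.2, b, d⟩⟩

variable {c}

/-- the three kinds of functions -/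
theorem cases {ℓ : E3 →ᵃ[ℝ] ℝ} (h : ℓ ∈ c.Ψ x) :
    (∃ (k : ℕ) (p : E3), Cb P Ω k p ∧ Adj P Ω x p ∧ ∃ (i : Fin 3) (a : ℤ) (ε : ℝ), ε ≠ 0 ∧
      ∀ y, ℓ y = ε * (dy P k y i - a)) ∨
    (∃ (j : Fin P.N) (p : E3), Co P j p ∧ Adj P Ω x p ∧ ∃ (i : Fin 3) (a : ℤ) (ε : ℝ), ε ≠ 0 ∧
      ∀ y, ℓ y = ε * (P.nu j y i - a)) ∨
    ∃ j, x ∈ P.Fine j ∧ ∃ a, ∃ k : ℤ, ∀ y, ℓ y = kΛ a ((P.n : ℝ) • P.nu j y) - k := by
  obtain ⟨m, hm, hx, ⟨m', hm', ⟨p, h1, h2⟩, hl⟩ | ⟨j, h1, h2, h3, a, k, -, rfl⟩⟩ := h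
  · have h3 : ∃ (i : Fin 3) (a : ℤ) (ε : ℝ), ε ≠ 0 ∧ ∀ y, ℓ y = ε * (c.θ m'.1 y i - a) := by
      rcases hl with ⟨i, rfl⟩ | ⟨i, rfl⟩
      · exact ⟨i, _, 1, one_ne_zero, fun y => (one_mul _).symm⟩
      · exact ⟨i, _, -1, by norm_num, fun y => (neg_one_mul _).symm⟩
    rcases hm' with ⟨k, h4, -, h5⟩ | ⟨j, h4, h5, -⟩
    · simp only [h4, c.hδ] at h3
      exact Or.inl ⟨k, p, ⟨_, h5, mem_cube h4 h2⟩, adj hm hx h1, h3⟩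
    · simp only [h4, c.hν] at h3
      exact Or.inr (Or.inl ⟨j, p, ⟨_, h5, (mem_core h4 h2).1⟩, adj hm hx h1, h3⟩)
  · refine Or.inr (Or.inr ⟨j, ⟨_, h2, h3 ▸ mem_core h1 hx⟩, a, k, fun y => ?_⟩)
    rw [fm_apply, h1, c.hν, map_smul]
    rfl

theorem kuhn_mem {j : Fin P.N} {z : Fin 3 → ℤ} (hz : z ∈ P.Inner j)
    (hx : P.nu j x ∈ uface z (P.T j).I) (a : Fin 3 ⊕ Fin 3 × Fin 3) {k : ℤ}
    (hk : |(k : ℝ) - P.n * kΛ a (fun i => (z i : ℝ))| ≤ P.n) :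
    ∃ ℓ ∈ c.Ψ x, ∀ y, ℓ y = kΛ a ((P.n : ℝ) • P.nu j y) - k := by
  refine ⟨_, ⟨(Sum.inr j, z, (P.T j).I), Or.inr ⟨j, rfl, inner_core hz, Or.inr ⟨rfl, hz⟩⟩,
    core_mem.2 hx, Or.inr ⟨j, rfl, hz, rfl, a, k, hk, rfl⟩⟩, fun y => ?_⟩
  rw [fm_apply, c.hν, map_smul]
  rfl

end Ctx

end Me

end P073
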